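import Vale.Agent.P161.Defs

/-!
# P161: Ising measures with edge dependent couplings, equivariant rules, rules of finite radius
-/

open MeasureTheory

namespace Vale.Agent.N161

open Classical in
/-- `μ` is a probability measure on spin configurations and, for every finite set `D` of vertices
inducing a connected subgraph and all spins `η`,
`μ(σ = η on D) = 1/2 * ∏_{edges e = uv inside D} (1 + θ e * η_u η_v)/2`. -/
def IsIsing {V : Type*} (G : SimpleGraph V) (θ : Sym2 V → ℝ) (μ : Measure (V → ℤˣ)) : Prop :=
  IsProbabilityMeasure μ ∧ ∀ D : Finset V, (G.induce (D : Set V)).Connected → ∀ η : V → ℤˣ,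
    μ {σ | ∀ v ∈ D, σ v = η v} =
      ENNReal.ofReal (1 / 2 * ∏ e ∈ D.sym2.filter (fun e => e ∈ G.edgeSet),
        (1 + θ e * (((e.map η).mul : ℤ) : ℝ)) / 2)

/-- `F` is measurable and `F (g x) = g (F x)` for every input `x` and every automorphism `g` which
preserves `θ` on the edges -/
def IsRule {V : Type*} (G : SimpleGraph V) (θ : Sym2 V → ℝ)
    (F : (V → unitInterval) → V → ℤˣ) : Prop :=
  Measurable F ∧ ∀ g : G ≃g G, (∀ u v, G.Adj u v → θ s(g u, g v) = θ s(u, v)) →
    ∀ x : V → unitInterval, F (fun v => x (g.symm v)) = fun v => F x (g.symm v)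

/-- the spin `F x v` depends only on the labels `x u` of the vertices within distance `r` of `v` -/
def HasRadius {V : Type*} (G : SimpleGraph V) (r : ℕ) (F : (V → unitInterval) → V → ℤˣ) : Prop :=
  ∀ (v : V) (x y : V → unitInterval), (∀ u, G.dist v u ≤ r → x u = y u) → F x v = F y v

end Vale.Agent.N161
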