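import Vale.Agent.P161T11.Final

/-!
# P161: at the critical point the factor map can be taken odd under a reflection of the labels
-/

open MeasureTheory Filter Topology

namespace Vale.Agent.N161

open Vale.Agent.P161 Vale.Agent.P161.H391

variable {V : Type*} {G : SimpleGraph V} {μ : Measure (V → ℤˣ)}

theorem lim_of_seq [Countable V] [IsProbabilityMeasure μ] (X : ℕ → V → Om V → ℝ)
    (hm : ∀ k v, Measurable (X k v)) (hb : ∀ k v ω, |X k v ω| ≤ 1)
    {K : V → ℝ}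
    (hincr : ∀ v k, ∫ ω, (X (k + 1) v ω - X k v ω) ^ 2 ∂(PP V) ≤ K v * (1 / 4) ^ k)
    (hvar : ∀ v k, ∫ ω, (1 - X k v ω ^ 2) ∂(PP V) ≤ K v * (1 / 4) ^ k)
    (hcorr : ∀ S : Finset V, Tendsto (fun k => ∫ ω, ∏ v ∈ S, X k v ω ∂(PP V)) atTop
      (𝓝 (∫ σ, spS S σ ∂μ))) :
    ∃ Ψ : Om V → V → ℤˣ, Measurable Ψ ∧ Measure.map Ψ (PP V) = μ ∧
      ∀ v, ∀ᵐ ω ∂(PP V), Tendsto (fun k => X k v ω) atTop (𝓝 (sp (Ψ ω) v)) := by
  classical
  have hFm : Measurable (signLim X) := measurable_signLim hm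
  have hsq : ∀ k v ω, X k v ω ^ 2 ≤ 1 := fun k v ω => by
    rw [← sq_abs]
    exact pow_le_one₀ (abs_nonneg _) (hb k v ω)
  have i1 : ∀ v k, Integrable (fun ω => (X (k + 1) v ω - X k v ω) ^ 2) (PP V) := fun v k => by
    refine Integrable.of_bound (((hm _ v).sub (hm k v)).pow_const 2).aestronglyMeasurable 4
      (Eventually.of_forall fun ω => ?_)
    rw [Real.norm_eq_abs, abs_of_nonneg (sq_nonneg _)]
    have h1 := abs_le.1 (hb (k + 1) v ω)
    have h2 := abs_le.1 (hb k v ω)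
    nlinarith only [h1, h2]
  have i2 : ∀ v k, Integrable (fun ω => 1 - X k v ω ^ 2) (PP V) := fun v k => by
    refine Integrable.of_bound (measurable_const.sub ((hm k v).pow_const 2)).aestronglyMeasurable 1
      (Eventually.of_forall fun ω => ?_)
    rw [Real.norm_eq_abs, abs_of_nonneg (by simpa only [sub_nonneg, sq_le_one_iff_abs_le_one] using hsq k v ω)]
    simpa only [tsub_le_iff_right, le_add_iff_nonneg_right] using sq_nonneg (X k v ω)
  have hlim : ∀ v, ∀ᵐ ω ∂(PP V), Tendsto (fun k => X k v ω) atTop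
      (𝓝 (sp (signLim X ω) v)) := by
    intro v
    have h1 := ae_tendsto_zero_of_integral_le (P := PP V)
      (f := fun k ω => (X (k + 1) v ω - X k v ω) ^ 2)
      (fun k => ((hm _ v).sub (hm k v)).pow_const 2) (fun k ω => sq_nonneg _)
      (fun k => i1 v k) (hincr v)
    have h2 := ae_tendsto_zero_of_integral_le (P := PP V)
      (f := fun k ω => 1 - X k v ω ^ 2)
      (fun k => measurable_const.sub ((hm k v).pow_const 2))
      (fun k ω => by linarith only [hsq k v ω]) (fun k => i2 v k) (hvar v)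
    filter_upwards [h1, h2] with ω hω1 hω2
    exact signLim_tendsto hω1 hω2
  refine ⟨signLim X, hFm, ?_, hlim⟩
  · have hP1 : IsProbabilityMeasure (Measure.map (signLim X) (PP V)) :=
      Measure.isProbabilityMeasure_map hFm.aemeasurable
    refine measure_ext_of_corr _ _ fun S => ?_
    have hS : Measurable (spS S : (V → ℤˣ) → ℝ) := measurable_spS S
    rw [integral_map hFm.aemeasurable hS.aestronglyMeasurable]
    refine tendsto_nhds_unique ?_ (hcorr S)
    refine tendsto_integral_of_dominated_convergence (fun _ => 1) (fun k => ?_)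
      (integrable_const _) (fun k => Eventually.of_forall fun ω => ?_) ?_
    · exact (Finset.measurable_fun_prod S fun v _ => hm k v).aestronglyMeasurable
    · rw [Real.norm_eq_abs, Finset.abs_prod]
      exact Finset.prod_le_one (fun v _ => abs_nonneg _) fun v _ => hb k v ω
    · have h : ∀ᵐ ω ∂(PP V), ∀ v ∈ S, Tendsto (fun k => X k v ω) atTop
          (𝓝 (sp (signLim X ω) v)) :=
        (eventually_all_finset S).2 fun v _ => hlim v
      filter_upwards [h] with ω hω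
      exact tendsto_finsetProd S fun v hv => hω v hv

theorem lim_of_family [Countable V] [IsProbabilityMeasure μ]
    (Y : ℕ → ℕ → V → Om V → ℝ) (hm : ∀ n t v, Measurable (Y n t v))
    (hb : ∀ n t v ω, |Y n t v ω| ≤ 1)
    (hc : ∀ t v, ∀ δ > 0, ∃ N, ∀ n ≥ N, ∀ m ≥ N,
      ∫ ω, (Y n t v ω - Y m t v ω) ^ 2 ∂(PP V) ≤ δ)
    {β : ℕ → ℝ} (hβ : Tendsto β atTop (𝓝 0))
    (hmart : ∀ n v s t, s ≤ t → ∫ ω, (Y n t v ω - Y n s v ω) ^ 2 ∂(PP V) ≤ β s)
    (hvar : ∀ n t v, ∫ ω, (1 - Y n t v ω ^ 2) ∂(PP V) ≤ β t)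
    {c : ℕ → Finset V → ℝ}
    (hcorr : ∀ S n t, |∫ ω, ∏ v ∈ S, Y n t v ω ∂(PP V) - c n S| ≤ S.card * β t)
    (hcS : ∀ S, Tendsto (fun n => c n S) atTop (𝓝 (∫ σ, spS S σ ∂μ))) :
    ∃ (ν τ : ℕ → ℕ) (Ψ : Om V → V → ℤˣ), Measurable Ψ ∧ Measure.map Ψ (PP V) = μ ∧
      ∀ v, ∀ᵐ ω ∂(PP V), Tendsto (fun k => Y (ν k) (τ k) v ω) atTop (𝓝 (sp (Ψ ω) v)) := by
  classical
  have : Encodable V := Encodable.ofCountable V
  -- the times
  have hT : ∀ k : ℕ, ∃ t0, ∀ t ≥ t0, β t ≤ (1 / 4) ^ k := by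
    intro k
    have h1 : ∀ᶠ t in atTop, β t < (1 / 4) ^ k := hβ.eventually_lt_const (by positivity)
    obtain ⟨t0, ht0⟩ := eventually_atTop.1 h1
    exact ⟨t0, fun t ht => (ht0 t ht).le⟩
  choose τ0 hτ0 using hT
  let τ : ℕ → ℕ := fun k => ∑ j ∈ Finset.range (k + 1), τ0 j
  have hτ1 : ∀ k, τ0 k ≤ τ k := fun k =>
    Finset.single_le_sum (f := τ0) (fun _ _ => Nat.zero_le _)
      (Finset.mem_range.2 (Nat.lt_succ_self k))
  have hτβ : ∀ k, β (τ k) ≤ (1 / 4) ^ k := fun k => hτ0 k _ (hτ1 k)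
  have hτmono : ∀ k, τ k ≤ τ (k + 1) := fun k => by
    simp only [τ]
    rw [Finset.sum_range_succ _ (k + 1)]
    exact Nat.le_add_right _ _
  have hcount : ∀ t, ∀ k : ℕ, ∃ N, ∀ n ≥ N, ∀ m ≥ N, ∀ v : V, Encodable.encode v ≤ k →
      ∫ ω, (Y n t v ω - Y m t v ω) ^ 2 ∂(PP V) ≤ (1 / 4) ^ k := by
    intro t k
    choose N hN using fun v : V => hc t v ((1 / 4) ^ k) (by positivity)
    have hfin : {v : V | Encodable.encode v ≤ k}.Finite := by
      refine Set.Finite.of_finite_image (f := fun v : V => Encodable.encode v)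
        ((Set.finite_Iic k).subset ?_) (Encodable.encode_injective.injOn)
      rintro _ ⟨v, hv, rfl⟩
      exact hv
    refine ⟨hfin.toFinset.sup N, fun n hn m hm' v hv => ?_⟩
    have hv' : v ∈ hfin.toFinset := by simpa only [Set.Finite.mem_toFinset, Set.mem_ofPred_eq] using hv
    have h1 : N v ≤ hfin.toFinset.sup N := Finset.le_sup (f := N) hv'
    exact hN v n (h1.trans hn) m (h1.trans hm')
  choose N hN using hcount
  let ν : ℕ → ℕ := fun k => k + ∑ j ∈ Finset.range (k + 1), N (τ j) j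
  have hν1 : ∀ k, N (τ k) k ≤ ν k := fun k => by
    have : N (τ k) k ≤ ∑ j ∈ Finset.range (k + 1), N (τ j) j :=
      Finset.single_le_sum (f := fun j => N (τ j) j) (fun _ _ => Nat.zero_le _)
        (Finset.mem_range.2 (Nat.lt_succ_self k))
    exact this.trans (Nat.le_add_left _ _)
  have hνmono : ∀ k, ν k ≤ ν (k + 1) := fun k => by
    simp only [ν]
    rw [Finset.sum_range_succ _ (k + 1)]
    omega
  have hνk : ∀ k, k ≤ ν k := fun k => Nat.le_add_right _ _
  have hsq : ∀ n t v ω, Y n t v ω ^ 2 ≤ 1 := fun n t v ω => by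
    rw [← sq_abs]
    exact pow_le_one₀ (abs_nonneg _) (hb n t v ω)
  have i1 : ∀ n t n' t' v, Integrable (fun ω => (Y n t v ω - Y n' t' v ω) ^ 2) (PP V) :=
    fun n t n' t' v => by
      refine Integrable.of_bound (((hm n t v).sub (hm n' t' v)).pow_const 2).aestronglyMeasurable 4
        (Eventually.of_forall fun ω => ?_)
      rw [Real.norm_eq_abs, abs_of_nonneg (sq_nonneg _)]
      have h1 := abs_le.1 (hb n t v ω)
      have h2 := abs_le.1 (hb n' t' v ω)
      nlinarith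
  have hle4 : ∀ n t n' t' v, ∫ ω, (Y n t v ω - Y n' t' v ω) ^ 2 ∂(PP V) ≤ 4 := by
    intro n t n' t' v
    calc ∫ ω, (Y n t v ω - Y n' t' v ω) ^ 2 ∂(PP V) ≤ ∫ _ω, (4 : ℝ) ∂(PP V) := by
          refine integral_mono (i1 n t n' t' v) (integrable_const _) fun ω => ?_
          have h1 := abs_le.1 (hb n t v ω)
          have h2 := abs_le.1 (hb n' t' v ω)
          simp only
          nlinarith
      _ = 4 := by simp
  have hincr : ∀ v k, ∫ ω, (Y (ν (k + 1)) (τ (k + 1)) v ω - Y (ν k) (τ k) v ω) ^ 2 ∂(PP V) ≤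
      (4 + 4 * 4 ^ (Encodable.encode v)) * (1 / 4) ^ k := by
    intro v k
    by_cases hk : Encodable.encode v ≤ k
    · have h1 := hmart (ν (k + 1)) v (τ k) (τ (k + 1)) (hτmono k)
      have h2 := hN (τ k) k (ν (k + 1)) ((hν1 k).trans (hνmono k)) (ν k) (hν1 k) v hk
      have h3 : ∫ ω, (Y (ν (k + 1)) (τ (k + 1)) v ω - Y (ν k) (τ k) v ω) ^ 2 ∂(PP V) ≤
          ∫ ω, (2 * (Y (ν (k + 1)) (τ (k + 1)) v ω - Y (ν (k + 1)) (τ k) v ω) ^ 2 +
            2 * (Y (ν (k + 1)) (τ k) v ω - Y (ν k) (τ k) v ω) ^ 2) ∂(PP V) := by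
        refine integral_mono (i1 _ _ _ _ v)
          (((i1 _ _ _ _ v).const_mul 2).add ((i1 _ _ _ _ v).const_mul 2)) fun ω => ?_
        simp only
        linarith only [sq_nonneg ((Y (ν (k + 1)) (τ (k + 1)) v ω - Y (ν (k + 1)) (τ k) v ω) - (Y (ν (k + 1)) (τ k) v ω - Y (ν k) (τ k) v ω))]
      have h4 := integral_add ((i1 (ν (k + 1)) (τ (k + 1)) (ν (k + 1)) (τ k) v).const_mul 2)
        ((i1 (ν (k + 1)) (τ k) (ν k) (τ k) v).const_mul 2)
      rw [h4, integral_const_mul, integral_const_mul] at h3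
      have h5 := hτβ k
      have h6 : (0 : ℝ) ≤ 4 * 4 ^ (Encodable.encode v) * (1 / 4) ^ k := by positivity
      have h7 : (0 : ℝ) ≤ (1 / 4) ^ k := by positivity
      calc _ ≤ _ := h3
        _ ≤ 4 * (1 / 4) ^ k := by linarith only [h5, h2, h1]
        _ ≤ 4 * (1 / 4) ^ k + 4 * 4 ^ (Encodable.encode v) * (1 / 4) ^ k :=
          le_add_of_nonneg_right h6
        _ = _ := by ring
    · have h1 : (1 : ℝ) ≤ 4 ^ (Encodable.encode v) * (1 / 4) ^ k := by
        have h8 : (4 : ℝ) ^ (Encodable.encode v) * (1 / 4) ^ k =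
            4 ^ (Encodable.encode v) / 4 ^ k := by
          rw [one_div, inv_pow]
          rfl
        rw [h8, one_le_div (by positivity)]
        exact pow_le_pow_right₀ (by norm_num) (by omega)
      have h7 : (0 : ℝ) ≤ (1 / 4) ^ k := by positivity
      calc _ ≤ (4 : ℝ) := hle4 _ _ _ _ v
        _ ≤ 4 * (4 ^ (Encodable.encode v) * (1 / 4) ^ k) := by linarith only [h1]
        _ ≤ _ := by
          have h9 : (4 + 4 * (4 : ℝ) ^ (Encodable.encode v)) * (1 / 4) ^ k =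
            4 * (1 / 4) ^ k + 4 * (4 ^ (Encodable.encode v) * (1 / 4) ^ k) := by ring
          rw [h9]
          linarith only [h7]
  refine ⟨ν, τ, lim_of_seq (μ := μ) (fun k => Y (ν k) (τ k))
    (fun k v => hm _ _ v) (fun k v ω => hb _ _ v ω)
    (K := fun v => 4 + 4 * 4 ^ (Encodable.encode v)) hincr (fun v k => ?_) (fun S => ?_)⟩
  · have h1 := (hvar (ν k) (τ k) v).trans (hτβ k)
    have h7 : (0 : ℝ) ≤ (1 / 4) ^ k := by positivity
    have h10 : (1 : ℝ) ≤ 4 ^ (Encodable.encode v) := one_le_pow₀ (by norm_num)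
    refine h1.trans ?_
    nlinarith only [h7, h10]
  · have hνt : Tendsto ν atTop atTop := tendsto_atTop_mono hνk tendsto_id
    have h1 : Tendsto (fun k => c (ν k) S) atTop (𝓝 (∫ σ, spS S σ ∂μ)) := (hcS S).comp hνt
    have h2 : Tendsto (fun k => ∫ ω, ∏ v ∈ S, Y (ν k) (τ k) v ω ∂(PP V) - c (ν k) S) atTop
        (𝓝 0) := by
      refine squeeze_zero_norm (a := fun k => (S.card : ℝ) * (1 / 4) ^ k) (fun k => ?_) ?_
      · rw [Real.norm_eq_abs]
        refine (hcorr S (ν k) (τ k)).trans ?_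
        gcongr
        exact hτβ k
      · have h3 := (tendsto_pow_atTop_nhds_zero_of_lt_one (r := (1 / 4 : ℝ)) (by norm_num)
          (by norm_num)).const_mul (S.card : ℝ)
        simpa only [one_div, inv_pow, mul_zero] using h3
    have h3 := h2.add h1
    simpa only [sub_add_cancel, zero_add] using h3

theorem mp_shift (g : G ≃g G) : MeasurePreserving (shift g : Om V → Om V) (PP V) (PP V) :=
  ⟨measurable_shift g, map_shift g⟩

theorem eq_of_sp {σ σ' : V → ℤˣ} {u v : V} (h : sp σ u = sp σ' v) : σ u = σ' v := by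
  unfold sp at h
  exact Units.ext (by exact_mod_cast h)

theorem twm_neg [G.LocallyFinite] (hG : G.IsTree) {θ : ℝ} (hμ : IsFreeIsing G θ μ) :
    twm (fun _ => -1) μ = μ := by
  have := hμ.isProb
  refine isFreeIsing_unique hG ⟨isProb_twm _ μ, fun D hD η => ?_⟩ hμ
  unfold twm
  rw [Measure.map_apply (measurable_tw _) (measurableSet_cyl D η)]
  have e : tw (fun _ => -1) ⁻¹' {σ : V → ℤˣ | ∀ v ∈ D, σ v = η v} =
      {σ | ∀ v ∈ D, σ v = (-η) v} := by
    ext σ
    simp only [Set.mem_preimage, Set.mem_ofPred_eq, tw, neg_mul, one_mul, Pi.neg_apply,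
      neg_eq_iff_eq_neg]
  rw [e, hμ.marginal D hD (-η)]
  refine congrArg (fun t => ENNReal.ofReal (1 / 2 * t)) (Finset.prod_congr rfl fun e _ => ?_)
  induction e using Sym2.ind with
  | _ u v => simp only [Sym2.map_mk, Sym2.mul_mk, Pi.neg_apply, neg_mul_neg]

theorem odd_of_seq {d : ℕ} {θc : ℝ} {θ : ℕ → ℝ} {ν : ℕ → Measure (V → ℤˣ)} [Encodable V]
    [G.LocallyFinite] (hG : G.IsTree)
    (hreg : G.IsRegularOfDegree d) (h : Seqn G d θc θ ν) (hd : 3 ≤ d) (hc : 0 < θc)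
    (hcrit : ((d : ℝ) - 1) * θc ^ 2 = 1) (hμ : IsFreeIsing G θc μ)
    (hconv : ∀ (t : ℕ) (v : V), Tendsto (fun p : ℕ × ℕ =>
      ∫ ω, (Minf hG (ν p.1) t v ω - Minf hG (ν p.2) t v ω) ^ 2 ∂(PP V))
        (atTop ×ˢ atTop) (𝓝 0)) :
    ∃ Ψ : Om V → V → ℤˣ, Measurable Ψ ∧ Measure.map Ψ (PP V) = μ ∧
      (∀ g : G ≃g G, ∀ᵐ ω ∂(PP V), Ψ (shift g ω) = fun v => Ψ ω (g.symm v)) ∧
      ∀ᵐ ω ∂(PP V), Ψ (twO (fun _ => -1) ω) = -Ψ ω := by
  have := hμ.isProb
  have hprob : ∀ n, IsProbabilityMeasure (ν n) := fun n => (h.ising n).isProb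
  have key : ∃ (a τ : ℕ → ℕ) (Ψ : Om V → V → ℤˣ), Measurable Ψ ∧ Measure.map Ψ (PP V) = μ ∧
      ∀ v, ∀ᵐ ω ∂(PP V), Tendsto (fun k => Minf hG (ν (a k)) (τ k : ℝ) v ω) atTop
        (𝓝 (sp (Ψ ω) v)) := by
    refine lim_of_family (μ := μ) (fun n t v => Minf hG (ν n) (t : ℝ) v)
      (fun n t v => measurable_Minf _ _) (fun n t v ω => abs_Minf_le _ _ _) ?_
      (β := bet) tendsto_bet ?_ ?_ (c := fun n S => ∫ σ, spS S σ ∂(ν n)) ?_ ?_
    · intro t v δ hδ
      have h1 := (hconv t v).eventually_lt_const hδ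
      rw [prod_atTop_atTop_eq, eventually_atTop] at h1
      obtain ⟨⟨N1, N2⟩, hN⟩ := h1
      refine ⟨max N1 N2, fun n hn m hm => ?_⟩
      exact (hN (n, m) ⟨(le_max_left _ _).trans hn, (le_max_right _ _).trans hm⟩).le
    · intro n v s t hst
      obtain ⟨lam, C, hr⟩ := h.rate hG hreg hd hc hcrit n
      have hst' : (s : ℝ) ≤ t := by exact_mod_cast hst
      rw [hr.integral_Minf_mart hG hst' v]
      have h1 := hr.integral_Minf_var_le hG s v
      have i1 : Integrable (fun ω => Minf hG (ν n) (s : ℝ) v ω ^ 2) (PP V) :=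
        integrable_of_abs_le ((measurable_Minf _ _).pow_const 2)
          (fun ω => sq_le_one_of_abs (abs_Minf_le _ _ _))
      have i2 : Integrable (fun ω => Minf hG (ν n) (t : ℝ) v ω ^ 2) (PP V) :=
        integrable_of_abs_le ((measurable_Minf _ _).pow_const 2)
          (fun ω => sq_le_one_of_abs (abs_Minf_le _ _ _))
      have h2 : ∫ ω, (1 - Minf hG (ν n) (s : ℝ) v ω ^ 2) ∂(PP V) =
          1 - ∫ ω, Minf hG (ν n) (s : ℝ) v ω ^ 2 ∂(PP V) := by
        rw [integral_sub (integrable_const _) i1]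
        simp only [integral_const, probReal_univ, smul_eq_mul, mul_one]
      have h3 : ∫ ω, Minf hG (ν n) (t : ℝ) v ω ^ 2 ∂(PP V) ≤ 1 := by
        have h4 : ∫ ω, Minf hG (ν n) (t : ℝ) v ω ^ 2 ∂(PP V) ≤ ∫ _ω, (1 : ℝ) ∂(PP V) :=
          integral_mono i2 (integrable_const _)
            (fun ω => (abs_le.1 (sq_le_one_of_abs (abs_Minf_le _ _ _))).2)
        simpa only [ge_iff_le, integral_const, probReal_univ, smul_eq_mul, mul_one] using h4
      rw [h2] at h1
      linarith only [h1, h3]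
    · intro n t v
      obtain ⟨lam, C, hr⟩ := h.rate hG hreg hd hc hcrit n
      exact hr.integral_Minf_var_le hG t v
    · intro S n t
      obtain ⟨lam, C, hr⟩ := h.rate hG hreg hd hc hcrit n
      exact hr.abs_integral_prod_Minf_sub_le hG S t
    · intro S
      exact tendsto_integral_spS hG (fun n => h.nonneg hc n) (fun n => h.lt_one hd hcrit n)
        hc.le (theta_lt_one hd hcrit) h.lim h.ising hμ S
  obtain ⟨a, τ, Ψ, hΨ, hlaw, hlim⟩ := key
  have hl := ae_all_iff.2 hlim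
  refine ⟨Ψ, hΨ, hlaw, fun g => ?_, ?_⟩
  · have h1 := ae_all_iff.2 fun n => ae_Minf_aut (hG := hG) g
      ((h.ising n).map_aut hG (h.nonneg hc n) (h.lt_one hd hcrit n) g)
    filter_upwards [hl, (mp_shift g).quasiMeasurePreserving.ae hl, h1]
      with ω e1 e2 e3
    funext v
    refine eq_of_sp (tendsto_nhds_unique (e2 v) ?_)
    simp only [e3]
    exact e1 _
  · have h1 : ∀ᵐ ω ∂(PP V), ∀ k v, Minf hG (ν (a k)) (τ k : ℝ) v ω =
        -Minf hG (ν (a k)) (τ k : ℝ) v (twO (fun _ => -1) ω) := by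
      refine ae_all_iff.2 fun k => ae_all_iff.2 fun v => ?_
      obtain ⟨lam, C, hr⟩ := h.rate hG hreg hd hc hcrit (a k)
      have := Minf_twm (fun _ => -1) hr hG (τ k : ℝ) v
      rw [twm_neg hG (h.ising _)] at this
      filter_upwards [this] with ω hω
      rw [hω]
      simp [sr]
    filter_upwards [hl, (mp_twO (fun _ => -1)).quasiMeasurePreserving.ae hl, h1] with ω e1 e2 e3
    funext v
    refine eq_of_sp (tendsto_nhds_unique (e2 v) ?_)
    have e4 : sp (-Ψ ω) v = -sp (Ψ ω) v := by simp [sp]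
    rw [e4]
    refine (e1 v).neg.congr fun k => ?_
    rw [e3 k v, neg_neg]

/-- the odd factor map at the critical point -/
theorem odd_critical [G.LocallyFinite] (hG : G.IsTree) {d : ℕ} (hd : 3 ≤ d)
    (hreg : G.IsRegularOfDegree d) {θc : ℝ} (h0 : 0 < θc) (hcrit : ((d : ℝ) - 1) * θc ^ 2 = 1)
    (hμ : IsFreeIsing G θc μ) :
    ∃ Ψ : Om V → V → ℤˣ, Measurable Ψ ∧ Measure.map Ψ (PP V) = μ ∧
      (∀ g : G ≃g G, ∀ᵐ ω ∂(PP V), Ψ (shift g ω) = fun v => Ψ ω (g.symm v)) ∧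
      ∀ᵐ ω ∂(PP V), Ψ (twO (fun _ => -1) ω) = -Ψ ω := by
  classical
  have hcount : Countable V := countable_of_tree hG
  have : Encodable V := Encodable.ofCountable V
  obtain ⟨b, rfl⟩ : ∃ b, d = b + 1 := ⟨d - 1, by omega⟩
  obtain ⟨a0⟩ := hG.connected.nonempty
  obtain ⟨b0, hab⟩ := exists_adj_of_regular (by omega) hreg a0
  obtain ⟨θ, ν, hS, hRB, hcau⟩ := exists_good_seqn hG hd hreg h0 hcrit hab
  have hc : 0 < θc ^ 2 / 12800 := by positivity
  refine odd_of_seq hG hreg hS hd h0 hcrit hμ fun t v => ?_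
  exact conv_of_est hreg hS hd h0 hcrit hc hRB v
    (KI_nonneg b h0 (theta_lt_one hd hcrit))
    (hI_of_seqn hreg hS hd h0 hcrit hc hRB v) (δ := 1 / 4) (by norm_num)
    (hII_of_seqn hreg hS hd h0 hcrit hc hRB hab hcau v) t (Nat.cast_nonneg t)

end Vale.Agent.N161
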