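import Mathlib.MeasureTheory.Integral.IntervalIntegral.Periodic
import Vale.Agent.N161.Odd

/-!
# P161: independent random signs on the edges of a tree from labels on the vertices
-/

open MeasureTheory Filter Topology

namespace Vale.Agent.N161

open Vale.Agent.P161

variable {V : Type*} {G : SimpleGraph V}

theorem map_update [DecidableEq V] (v : V) :
    ((lab V).prod (volume : Measure unitInterval)).map
      (fun q => Function.update q.1 v q.2) = lab V := by
  have hm : Measurable fun q : (V → unitInterval) × unitInterval => Function.update q.1 v q.2 :=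
    measurable_update'
  refine Measure.eq_infinitePi _ fun s t ht => ?_
  rw [Measure.map_apply hm (MeasurableSet.pi s.countable_toSet fun i _ => ht i)]
  by_cases hv : v ∈ s
  · have : (fun q : (V → unitInterval) × unitInterval => Function.update q.1 v q.2) ⁻¹'
        (Set.pi s t) = (Set.pi (s.erase v) t) ×ˢ t v := by
      ext q
      simp only [Set.mem_preimage, Set.mem_pi, Finset.mem_coe, Set.mem_prod, Finset.mem_erase]
      refine ⟨fun h => ⟨fun i hi => ?_, ?_⟩, fun h i hi => ?_⟩
      · have := h i hi.2
        rwa [Function.update_of_ne hi.1] at this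
      · have := h v hv
        rwa [Function.update_self] at this
      · by_cases e : i = v
        · rw [e, Function.update_self]
          exact h.2
        · rw [Function.update_of_ne e]
          exact h.1 i ⟨e, hi⟩
    rw [this, Measure.prod_prod, Measure.infinitePi_pi _ (fun i _ => ht i),
      Finset.prod_erase_mul _ _ hv]
  · have : (fun q : (V → unitInterval) × unitInterval => Function.update q.1 v q.2) ⁻¹'
        (Set.pi s t) = (Set.pi s t) ×ˢ Set.univ := by
      ext q
      simp only [Set.mem_preimage, Set.mem_pi, Finset.mem_coe, Set.mem_prod, Set.mem_univ,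
        and_true]
      refine forall₂_congr fun i hi => ?_
      rw [Function.update_of_ne (fun e : i = v => hv (e ▸ hi))]
    rw [this, Measure.prod_prod, Measure.infinitePi_pi _ (fun i _ => ht i), measure_univ, mul_one]

/-- the point of the circle attached to an edge -/
noncomputable def ew (κ : unitInterval → UnitAddCircle) (y : V → unitInterval) (e : Sym2 V) :
    UnitAddCircle := (e.map fun v => κ (y v)).add

theorem measurable_ew {κ : unitInterval → UnitAddCircle} (hκ : Measurable κ) (e : Sym2 V) :
    Measurable fun y : V → unitInterval => ew κ y e := by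
  induction e using Sym2.ind with
  | _ u v => exact (hκ.comp (measurable_pi_apply u)).add (hκ.comp (measurable_pi_apply v))

theorem integral_edges (hG : G.IsTree) {κ : unitInterval → UnitAddCircle} (hκ : Measurable κ)
    (hl : Measure.map κ volume = volume) (h : Sym2 V → UnitAddCircle → ℝ)
    (hm : ∀ e, Measurable (h e)) (F : Finset (Sym2 V)) (hF : ∀ e ∈ F, e ∈ G.edgeSet)
    (hb : ∀ e ∈ F, ∀ a, |h e a| ≤ 1) :
    ∫ y, ∏ e ∈ F, h e (ew κ y e) ∂(lab V) = ∏ e ∈ F, ∫ a, h e a := by
  classical
  obtain ⟨o⟩ := hG.connected.nonempty
  induction F using Finset.induction_on_max_value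
    (fun e : Sym2 V => (e.map fun v => G.dist o v).add) with
  | empty => simp
  | insert e0 F he0 hmax ih =>
    have ih' := ih (fun e he => hF e (Finset.mem_insert_of_mem he))
      fun e he => hb e (Finset.mem_insert_of_mem he)
    obtain ⟨u, v, rfl, huv, hd⟩ : ∃ u v, e0 = s(u, v) ∧ G.Adj u v ∧
        G.dist o v = G.dist o u + 1 := by
      have := hF e0 (Finset.mem_insert_self _ _)
      induction e0 using Sym2.ind with
      | _ u v =>
        rcases hG.dist_eq_dist_add_one_of_adj o this with k | k
        · exact ⟨v, u, Sym2.eq_swap, this.symm, k⟩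
        · exact ⟨u, v, rfl, this, k⟩
    have hv : ∀ e ∈ F, v ∉ e := by
      intro e he hve
      obtain ⟨w, rfl⟩ := Sym2.mem_iff_exists.1 hve
      have a : G.Adj v w := hF _ (Finset.mem_insert_of_mem he)
      have b := hmax _ he
      simp only [Sym2.map_mk, Sym2.add_mk] at b
      rcases hG.dist_eq_dist_add_one_of_adj o a with k | k
      · obtain rfl := P161T11.par_unique hG a.symm huv k hd
        exact he0 (Sym2.eq_swap ▸ he)
      · omega
    have hR : ∀ (y : V → unitInterval) a, ∏ e ∈ F, h e (ew κ (Function.update y v a) e) =
        ∏ e ∈ F, h e (ew κ y e) := by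
      intro y a
      refine Finset.prod_congr rfl fun e he => congrArg (h e) ?_
      unfold ew
      refine congrArg Sym2.add (Sym2.map_congr fun w hw => ?_)
      rw [Function.update_of_ne (fun k : w = v => hv e he (k ▸ hw))]
    have mH : Measurable fun y : V → unitInterval =>
        ∏ e ∈ insert s(u, v) F, h e (ew κ y e) :=
      Finset.measurable_fun_prod _ fun e _ => (hm e).comp (measurable_ew hκ e)
    have mU : Measurable fun q : (V → unitInterval) × unitInterval =>
        Function.update q.1 v q.2 := measurable_update'
    have iH : Integrable (fun q : (V → unitInterval) × unitInterval =>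
        ∏ e ∈ insert s(u, v) F, h e (ew κ (Function.update q.1 v q.2) e))
        ((lab V).prod volume) := by
      refine Integrable.of_bound (mH.comp mU).aestronglyMeasurable 1
        (Eventually.of_forall fun q => ?_)
      rw [Real.norm_eq_abs, Finset.abs_prod]
      exact Finset.prod_le_one (fun _ _ => abs_nonneg _) fun e he => hb e he _
    conv_lhs => rw [← map_update v]
    rw [integral_map mU.aemeasurable mH.aestronglyMeasurable, integral_prod _ iH,
      Finset.prod_insert he0, ← ih', ← integral_const_mul]
    refine integral_congr_ae (Eventually.of_forall fun y => ?_)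
    simp only [Finset.prod_insert he0, hR]
    rw [integral_mul_const]
    refine congrArg (· * _) ?_
    have e1 : ∀ a, ew κ (Function.update y v a) s(u, v) = κ a + κ (y u) := fun a => by
      simp only [ew, Sym2.map_mk, Sym2.add_mk, Function.update_self,
        Function.update_of_ne huv.ne, add_comm]
    simp only [e1]
    have mm : Measurable fun z : UnitAddCircle => h s(u, v) (z + κ (y u)) :=
      (hm _).comp (measurable_add_const _)
    rw [← integral_map hκ.aemeasurable mm.aestronglyMeasurable, hl]
    exact integral_add_right_eq_self (fun z => h s(u, v) z) _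

open Classical in
/-- the sign with mean `r` read off a point of the circle -/
noncomputable def cs (r : ℝ) (z : UnitAddCircle) : ℤˣ :=
  if z ∈ Metric.closedBall (0 : UnitAddCircle) ((1 + r) / 4) then 1 else -1

theorem measurable_cs (r : ℝ) : Measurable (cs r) :=
  Measurable.ite measurableSet_closedBall measurable_const measurable_const

theorem integral_cs {r : ℝ} (hr : |r| ≤ 1) (c : ℝ) :
    ∫ z, (1 + c * ((cs r z : ℤ) : ℝ)) / 2 = (1 + c * r) / 2 := by
  classical
  have : IsProbabilityMeasure (volume : Measure UnitAddCircle) := ⟨UnitAddCircle.measure_univ⟩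
  have hr' := abs_le.1 hr
  have e : ∀ z, (1 + c * ((cs r z : ℤ) : ℝ)) / 2 = (1 - c) / 2 +
      c * (Metric.closedBall (0 : UnitAddCircle) ((1 + r) / 4)).indicator 1 z := by
    intro z
    unfold cs
    by_cases hz : z ∈ Metric.closedBall (0 : UnitAddCircle) ((1 + r) / 4)
    · rw [if_pos hz, Set.indicator_of_mem hz]
      simp
      ring
    · rw [if_neg hz, Set.indicator_of_notMem hz]
      simp
      ring
  simp only [e]
  have i1 : Integrable (fun z : UnitAddCircle =>
      c * (Metric.closedBall (0 : UnitAddCircle) ((1 + r) / 4)).indicator (1 : UnitAddCircle → ℝ) z)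
      volume := ((integrable_const 1).indicator measurableSet_closedBall).const_mul c
  rw [integral_add (integrable_const _) i1, integral_const_mul,
    integral_indicator_one measurableSet_closedBall, Measure.real, AddCircle.volume_closedBall,
    min_eq_right (by linarith [hr'.2]), ENNReal.toReal_ofReal (by linarith [hr'.1])]
  simp
  ring

theorem exists_kappa : ∃ κ : unitInterval → UnitAddCircle, Measurable κ ∧
    Measure.map κ volume = volume := by
  have : IsProbabilityMeasure (volume : Measure UnitAddCircle) := ⟨UnitAddCircle.measure_univ⟩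
  exact Measure.exists_measurable_map_eq _

/-- a measurable choice of a sign field with prescribed products along the edges -/
theorem exists_gauge (hG : G.IsTree) {Ω : Type*} [MeasurableSpace Ω] (τ : Ω → Sym2 V → ℤˣ)
    (hτ : ∀ e, Measurable fun y => τ y e) : ∃ s : Ω → V → ℤˣ, Measurable s ∧
      ∀ y u v, G.Adj u v → s y u * s y v = τ y s(u, v) := by
  classical
  obtain ⟨o⟩ := hG.connected.nonempty
  obtain ⟨_, F, hF, -, Fe, -⟩ := P161T11.exists_built hG 0 o
  choose! p hp hd using fun v (h : v ≠ o) => P161T11.par_exists hG h
  refine ⟨fun y => F fun v => τ y s(p v, v), hF.comp (measurable_pi_lambda _ fun v => hτ _), ?_⟩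
  have : ∀ y u v, G.Adj u v → G.dist o v = G.dist o u + 1 →
      F (fun v => τ y s(p v, v)) u * F (fun v => τ y s(p v, v)) v = τ y s(u, v) := by
    intro y u v a b
    have n : v ≠ o := by rintro rfl; simp at b
    rw [P161T11.unit_iff.1 (Fe _ u v a b), ← mul_assoc, Int.units_mul_self, one_mul,
      P161T11.par_unique hG (hp v n) a (hd v n) b]
  intro y u v a
  rcases hG.dist_eq_dist_add_one_of_adj o a with k | k
  · rw [mul_comm, this y v u a.symm k, Sym2.eq_swap]
  · exact this y u v a k

theorem gauge_unique (hG : G.Connected) {s s' : V → ℤˣ}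
    (h : ∀ u v, G.Adj u v → s u * s v = s' u * s' v) (u v : V) : s u * s v = s' u * s' v := by
  obtain ⟨w⟩ := hG.preconnected u v
  induction w with
  | nil => rw [Int.units_mul_self, Int.units_mul_self]
  | @cons a b c e _ ih =>
    have := h a b e
    calc s a * s c = (s a * s b) * (s b * s c) := by
          rw [mul_assoc, ← mul_assoc (s b), Int.units_mul_self, one_mul]
      _ = s' a * s' c := by
          rw [this, ih, mul_assoc, ← mul_assoc (s' b), Int.units_mul_self, one_mul]

end Vale.Agent.N161
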