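import Vale.Agent.N161.Mix

/-!
# P161: from the regular tree to all trees with degrees at most `d`
-/

open MeasureTheory Filter Topology

namespace Vale.Agent.N161

open Vale.Agent.P161 SimpleGraph

/-- admissible addresses in the branches attached to a vertex which needs `n` more neighbours -/
def ok (d n : ℕ) : List ℕ → Prop
  | [] => True
  | [a] => a < n
  | a :: b :: l => a < d - 1 ∧ ok d n (b :: l)

theorem ok_tail {d n a : ℕ} {l : List ℕ} (h : ok d n (a :: l)) : ok d n l := by
  cases l with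
  | nil => trivial
  | cons b l => exact h.2

variable {W : Type*} (H : SimpleGraph W) (d : ℕ)

/-- the vertices of the extension -/
abbrev XV := {p : W × List ℕ // ok d (d - (H.neighborSet p.1).ncard) p.2}

/-- the extension of `H` to a regular graph -/
def XG : SimpleGraph (XV H d) where
  Adj p q := (p.1.2 = [] ∧ q.1.2 = [] ∧ H.Adj p.1.1 q.1.1) ∨
    (p.1.1 = q.1.1 ∧ ∃ a, q.1.2 = a :: p.1.2 ∨ p.1.2 = a :: q.1.2)
  symm := ⟨fun _ _ h => h.imp (fun k => ⟨k.2.1, k.1, k.2.2.symm⟩)
    fun k => ⟨k.1.symm, k.2.imp fun _ => Or.symm⟩⟩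
  loopless := ⟨fun p h => by
    rcases h with k | ⟨-, a, k | k⟩
    · exact k.2.2.ne rfl
    · exact absurd (congrArg List.length k) (by simp)
    · exact absurd (congrArg List.length k) (by simp)⟩

/-- the embedding of `H` -/
def xi (w : W) : XV H d := ⟨(w, []), trivial⟩

variable {H d}

theorem xi_adj {u v : W} : (XG H d).Adj (xi H d u) (xi H d v) ↔ H.Adj u v := by
  refine ⟨?_, fun h => .inl ⟨rfl, rfl, h⟩⟩
  rintro (k | ⟨-, a, k | k⟩)
  · exact k.2.2
  · exact absurd k (by simp [xi])
  · exact absurd k (by simp [xi])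

theorem bridge_of_inv {V : Type*} {G : SimpleGraph V} {x y : V} (P : V → Prop) (hx : P x)
    (hy : ¬ P y) (h : ∀ a b, G.Adj a b → s(a, b) ≠ s(x, y) → P a → P b) : G.IsBridge s(x, y) := by
  rw [isBridge_iff]
  rintro ⟨p⟩
  have : ∀ a b (_ : (G.deleteEdges {s(x, y)}).Walk a b), P a → P b := by
    intro a b p
    induction p with
    | nil => exact id
    | cons e _ ih =>
      rw [deleteEdges_adj, Set.mem_singleton_iff] at e
      exact fun k => ih (h _ _ e.1 e.2 k)
  exact hy (this _ _ p hx)

theorem xg_tree (hH : H.IsTree) : (XG H d).IsTree := by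
  refine ⟨?_, isAcyclic_iff_forall_isBridge.2 ?_⟩
  · have a : ∀ (w : W) (l : List ℕ) (h), (XG H d).Reachable (xi H d w) ⟨(w, l), h⟩ := by
      intro w l
      induction l with
      | nil => exact fun _ => .rfl
      | cons a l ih =>
        exact fun h => (ih (ok_tail h)).trans
          (Adj.reachable (G := XG H d) (.inr ⟨rfl, a, .inl rfl⟩))
    have b : ∀ u v, (XG H d).Reachable (xi H d u) (xi H d v) := fun u v =>
      (hH.connected.preconnected u v).map (⟨xi H d, xi_adj.2⟩ : H →g XG H d)
    obtain ⟨o⟩ := hH.connected.nonempty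
    have n : Nonempty (XV H d) := ⟨xi H d o⟩
    exact ⟨fun p q => ((a p.1.1 p.1.2 p.2).symm.trans (b _ _)).trans (a q.1.1 q.1.2 q.2)⟩
  have key : ∀ (p q : XV H d) a, p.1.1 = q.1.1 → q.1.2 = a :: p.1.2 →
      (XG H d).IsBridge s(q, p) := by
    intro p q a e k
    refine bridge_of_inv (fun x => x.1.1 = q.1.1 ∧ q.1.2 <:+ x.1.2) ⟨rfl, List.suffix_rfl⟩
      (fun h => ?_) ?_
    · have := h.2.length_le
      rw [k, List.length_cons] at this
      omega
    · rintro x y (h | ⟨h, b, c | c⟩) n ⟨h1, h2⟩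
      · rw [h.1, k] at h2
        simp at h2
      · exact ⟨h ▸ h1, c ▸ h2.trans (List.suffix_cons _ _)⟩
      · refine ⟨h ▸ h1, ?_⟩
        rw [c, List.suffix_cons_iff] at h2
        refine h2.resolve_left fun f => n ?_
        obtain rfl : x = q := Subtype.ext (Prod.ext h1 (c.trans f.symm))
        obtain rfl : y = p := Subtype.ext (Prod.ext (h.symm.trans e.symm)
          (List.cons.inj (c.symm.trans k)).2)
        rfl
  intro e
  induction e using Sym2.ind with
  | _ p q =>
  rintro (h | ⟨h, a, k | k⟩)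
  · have hb := isAcyclic_iff_forall_isBridge.1 hH.isAcyclic (e := s(p.1.1, q.1.1)) h.2.2
    rw [isBridge_iff] at hb
    refine bridge_of_inv (fun x => (H.deleteEdges {s(p.1.1, q.1.1)}).Reachable p.1.1 x.1.1)
      .rfl hb ?_
    rintro x y (c | ⟨c, -⟩) n hx
    · refine hx.trans (Adj.reachable ?_)
      rw [deleteEdges_adj, Set.mem_singleton_iff]
      refine ⟨c.2.2, fun f => n ?_⟩
      rcases Sym2.eq_iff.1 f with f | f
      · rw [show x = p from Subtype.ext (Prod.ext f.1 (c.1.trans h.1.symm)),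
          show y = q from Subtype.ext (Prod.ext f.2 (c.2.1.trans h.2.1.symm))]
      · rw [show x = q from Subtype.ext (Prod.ext f.1 (c.1.trans h.2.1.symm)),
          show y = p from Subtype.ext (Prod.ext f.2 (c.2.1.trans h.1.symm)), Sym2.eq_swap]
    · exact c ▸ hx
  · rw [Sym2.eq_swap]
    exact key p q a h k
  · exact key q p a h.symm k

theorem ncard_Iio' (n : ℕ) : (Set.Iio n).ncard = n := by
  rw [← Finset.coe_range, Set.ncard_coe_finset, Finset.card_range]

theorem xg_ncard (hd : 1 ≤ d) (hdeg : ∀ w, (H.neighborSet w).encard ≤ d) (p : XV H d) :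
    ((XG H d).neighborSet p).ncard = d := by
  obtain ⟨⟨w, l⟩, hp⟩ := p
  have fin : (H.neighborSet w).Finite := Set.finite_of_encard_le_coe (hdeg w)
  have le : (H.neighborSet w).ncard ≤ d := by
    have := hdeg w
    rw [← fin.cast_ncard_eq] at this
    exact_mod_cast this
  rw [← Set.ncard_image_of_injective _ Subtype.val_injective]
  cases l with
  | nil =>
    have e : Subtype.val '' (XG H d).neighborSet ⟨(w, []), hp⟩ =
        (fun u => (u, [])) '' H.neighborSet w ∪
          (fun a => (w, [a])) '' Set.Iio (d - (H.neighborSet w).ncard) := by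
      ext ⟨u, m⟩
      constructor
      · rintro ⟨⟨_, h⟩, k | ⟨k, a, c | c⟩, rfl⟩
        · exact .inl ⟨_, k.2.2, Prod.ext rfl k.2.1.symm⟩
        · obtain rfl : w = u := k
          obtain rfl : m = [a] := c
          exact .inr ⟨a, h, rfl⟩
        · exact absurd c (by simp)
      · rintro (⟨u, h, k⟩ | ⟨a, h, k⟩)
        · exact ⟨xi H d u, .inl ⟨rfl, rfl, h⟩, k⟩
        · exact ⟨⟨(w, [a]), h⟩, .inr ⟨rfl, a, .inl rfl⟩, k⟩
    rw [e, Set.ncard_union_eq _ (fin.image _) ((Set.finite_Iio _).image _),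
      Set.ncard_image_of_injective _ fun a b h => (Prod.mk.inj h).1,
      Set.ncard_image_of_injective _ fun a b h => (List.cons.inj (Prod.mk.inj h).2).1,
      ncard_Iio']
    · omega
    · rw [Set.disjoint_left]
      rintro _ ⟨u, -, rfl⟩ ⟨a, -, k⟩
      exact absurd (Prod.mk.inj k).2 (by simp)
  | cons b l =>
    have e : Subtype.val '' (XG H d).neighborSet ⟨(w, b :: l), hp⟩ =
        insert (w, l) ((fun a => (w, a :: b :: l)) '' Set.Iio (d - 1)) := by
      ext ⟨u, m⟩
      constructor
      · rintro ⟨⟨_, h⟩, k | ⟨k, a, c | c⟩, rfl⟩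
        · exact absurd k.1 (by simp)
        · obtain rfl : w = u := k
          obtain rfl : m = a :: b :: l := c
          exact .inr ⟨a, h.1, rfl⟩
        · exact .inl (Prod.ext k.symm (List.cons.inj c).2.symm)
      · rintro (k | ⟨a, h, k⟩)
        · exact ⟨⟨(w, l), ok_tail hp⟩, .inr ⟨rfl, b, .inr rfl⟩, k.symm⟩
        · exact ⟨⟨(w, a :: b :: l), h, hp⟩, .inr ⟨rfl, a, .inl rfl⟩, k⟩
    rw [e, Set.ncard_insert_of_notMem _ ((Set.finite_Iio _).image _),
      Set.ncard_image_of_injective _ fun a b h => (List.cons.inj (Prod.mk.inj h).2).1,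
      ncard_Iio']
    · omega
    · rintro ⟨a, -, k⟩
      exact absurd (congrArg List.length (Prod.mk.inj k).2) (by simp; omega)

theorem ncard_aut (g : H ≃g H) (w : W) :
    (H.neighborSet (g w)).ncard = (H.neighborSet w).ncard :=
  (Set.ncard_congr' (g.mapNeighborSet w)).symm

/-- the extension of an automorphism -/
def xa (g : H ≃g H) : XG H d ≃g XG H d where
  toFun p := ⟨(g p.1.1, p.1.2), by rw [ncard_aut]; exact p.2⟩
  invFun p := ⟨(g.symm p.1.1, p.1.2), by rw [ncard_aut]; exact p.2⟩
  left_inv p := Subtype.ext (Prod.ext (g.symm_apply_apply _) rfl)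
  right_inv p := Subtype.ext (Prod.ext (g.apply_symm_apply _) rfl)
  map_rel_iff' := or_congr (and_congr_right fun _ => and_congr_right fun _ => g.map_adj_iff)
    (and_congr_left fun _ => g.injective.eq_iff)

theorem general (hH : H.IsTree) (hd : 3 ≤ d) (hdeg : ∀ w, (H.neighborSet w).encard ≤ d) {θ : ℝ}
    (h0 : 0 < θ) (hcrit : ((d : ℝ) - 1) * θ ^ 2 = 1) {J : Sym2 W → ℝ}
    (hJ : ∀ e ∈ H.edgeSet, |J e| ≤ θ) :
    ∃ Φ : (W → unitInterval) → W → ℤˣ, Measurable Φ ∧ (∀ g : H ≃g H, Keeps H J g →
      ∀ᵐ x ∂(lab W), Φ (fun v => x (g.symm v)) = fun v => Φ x (g.symm v)) ∧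
      IsIsing H J (Measure.map Φ (lab W)) := by
  classical
  have hr := xg_ncard (H := H) (by omega : 1 ≤ d) hdeg
  have lf : (XG H d).LocallyFinite := fun v =>
    (Set.finite_of_ncard_pos (by rw [hr]; omega)).fintype
  have reg : (XG H d).IsRegularOfDegree d := fun v => by
    rw [← card_neighborSet_eq_degree, ← Nat.card_eq_fintype_card]; exact hr v
  let K : Sym2 W → ℝ := fun e => if e ∈ H.edgeSet then J e else 0
  obtain ⟨Φ, hΦ, he, hp, hI⟩ := mix (xg_tree hH) hd reg h0 hcrit
    (J := fun e => K (e.map fun p => p.1.1)) (fun e _ => by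
      simp only [K]
      split_ifs with h
      · exact hJ _ h
      · simpa using h0.le)
  obtain ⟨Ξ, hΞ, hΞl⟩ := exists_decode
  let L : (W → unitInterval) → XV H d → unitInterval :=
    fun x p => Ξ (x p.1.1) (Encodable.encode p.1.2)
  have hL : MeasurePreserving L (lab W) (lab (XV H d)) := by
    have h1 := Measure.infinitePi_map_pi (fun _ : W => (volume : Measure unitInterval))
      (f := fun _ => Ξ) (fun _ => hΞ)
    have h2 := Measure.infinitePi_map_curry_symm
      (fun (_ : W) (_ : ℕ) => (volume : Measure unitInterval))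
    rw [hΞl] at h1
    have hm : Measurable (fun (x : W → unitInterval) (i : W) => Ξ (x i)) :=
      measurable_pi_iff.2 fun v => hΞ.comp (measurable_pi_apply v)
    have hf : Function.Injective fun p : XV H d => (p.1.1, Encodable.encode p.1.2) :=
      fun p q h => Subtype.ext (Prod.ext (Prod.mk.inj h).1
        (Encodable.encode_injective (Prod.mk.inj h).2))
    have h3 := Measure.map_infinitePi_infinitePi_of_inj
      (P := fun _ : W × ℕ => (volume : Measure unitInterval)) hf
    have a : MeasurePreserving _ (lab W) _ := ⟨hm, h1⟩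
    have b : MeasurePreserving _ _ (noise W) :=
      ⟨(MeasurableEquiv.curry W ℕ unitInterval).symm.measurable, h2⟩
    have c : MeasurePreserving _ (noise W) (lab (XV H d)) :=
      ⟨measurable_pi_lambda _ fun _ => measurable_pi_apply _, h3⟩
    exact (c.comp b).comp a
  have mR : Measurable fun (σ : XV H d → ℤˣ) (w : W) => σ (xi H d w) :=
    measurable_pi_lambda _ fun _ => measurable_pi_apply _
  have mΦ : Measurable fun x w => Φ (L x) (xi H d w) := mR.comp (hΦ.comp hL.measurable)
  refine ⟨fun x w => Φ (L x) (xi H d w), mΦ, fun g hg => ?_,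
    Measure.isProbabilityMeasure_map mΦ.aemeasurable, fun D hD η => ?_⟩
  · have hk : Keeps (XG H d) (fun e => K (e.map fun p => p.1.1)) (xa g) := by
      intro p q _
      show K s(g p.1.1, g q.1.1) = K s(p.1.1, q.1.1)
      simp only [K, mem_edgeSet, g.map_adj_iff]
      split_ifs with h
      · exact hg _ _ h
      · rfl
    filter_upwards [hL.quasiMeasurePreserving.ae (he _ hk)] with x hx
    funext w
    exact congrFun hx (xi H d w)
  have inj : Function.Injective (xi H d) := fun a b h => congrArg (fun p => p.1.1) h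
  have hD' : ((XG H d).induce (D.image (xi H d) : Set (XV H d))).Connected := by
    let f : H.induce (D : Set W) →g (XG H d).induce (D.image (xi H d) : Set (XV H d)) :=
      ⟨fun v => ⟨xi H d v.1, Finset.mem_image_of_mem _ v.2⟩,
        fun h => (xi_adj (H := H) (d := d)).2 h⟩
    refine hD.map f ?_
    rintro ⟨p, hp⟩
    obtain ⟨v, hv, rfl⟩ := Finset.mem_image.1 hp
    exact ⟨⟨v, hv⟩, rfl⟩
  have h := hI _ hD' fun p => η p.1.1
  rw [← hL.map_eq, Measure.map_map hΦ hL.measurable,
    Measure.map_apply (hΦ.comp hL.measurable) (measurableSet_cyl _ _)] at h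
  rw [Measure.map_apply mΦ (measurableSet_cyl _ _)]
  refine Eq.trans (congrArg _ (Set.ext fun x => ?_)) (h.trans (congrArg
    (fun t => ENNReal.ofReal (1 / 2 * t)) (Eq.symm ?_)))
  · simp only [Set.mem_preimage, Set.mem_ofPred_eq, Finset.forall_mem_image, Function.comp]
    rfl
  refine Finset.prod_nbij (Sym2.map (xi H d)) (fun e he => ?_)
    (fun a _ b _ h => Sym2.map.injective inj h) (fun e he => ?_) fun e he => ?_
  · induction e using Sym2.ind with
    | _ u v =>
      simp only [Finset.mem_filter, Finset.mk_mem_sym2_iff, mem_edgeSet, Sym2.map_mk, xi_adj]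
        at he ⊢
      exact ⟨⟨Finset.mem_image_of_mem _ he.1.1, Finset.mem_image_of_mem _ he.1.2⟩, he.2⟩
  · induction e using Sym2.ind with
    | _ p q =>
      simp only [Finset.coe_filter, Finset.mk_mem_sym2_iff, mem_edgeSet, Set.mem_ofPred_eq] at he
      obtain ⟨u, hu, rfl⟩ := Finset.mem_image.1 he.1.1
      obtain ⟨v, hv, rfl⟩ := Finset.mem_image.1 he.1.2
      refine ⟨s(u, v), ?_, rfl⟩
      simp only [Finset.coe_filter, Finset.mk_mem_sym2_iff, mem_edgeSet, Set.mem_ofPred_eq]
      exact ⟨⟨hu, hv⟩, xi_adj.1 he.2⟩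
  · have he' := (Finset.mem_filter.1 he).2
    induction e using Sym2.ind with
    | _ u v =>
      show _ = (1 + K s(u, v) * (((η u * η v : ℤˣ) : ℤ) : ℝ)) / 2
      simp only [K, if_pos he']
      rfl

end Vale.Agent.N161
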