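import Vale.Agent.N161.Local

/-!
# P161: above the threshold the free Ising measure is not a limit of factors of IID
-/

open MeasureTheory Filter Topology

namespace Vale.Agent.N161

open Vale.Agent.P161

variable {V : Type*} {G : SimpleGraph V}

/-- the spectral bound for a centred field -/
theorem spec_bound [G.LocallyFinite] (hG : G.IsTree) {d : ℕ} (hd : 2 ≤ d)
    (hreg : G.IsRegularOfDegree d) {c : EdgeCol G d} {f : V → (V → unitInterval) → ℝ}
    (hf : Fld c 1 f) (o : V) (hmean : ∫ ω, f o ω ∂(lab V) = 0) {s : ℝ} (hs0 : 0 < s)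
    (hs1 : s ≤ 1) (hs2 : ((d : ℝ) - 1) * s ^ 2 = 1) (n : ℕ) :
    ∫ ω, f o ω * (adjF (G := G))^[n] f o ω ∂(lab V) ≤ (2 / s) ^ n := by
  refine le_of_forall_pos_le_add fun ε hε => ?_
  have hdp : (0 : ℝ) < d := by exact_mod_cast (by omega : 0 < d)
  have hd0 : (0 : ℝ) < 2 * (d : ℝ) ^ n := by positivity
  obtain ⟨B, φ', hφ'm, hφ'1, hφ'i, hφ'e⟩ := local_approx hG o (hf.meas o) (hf.bdd o)
    (δ := ε / (2 * (d : ℝ) ^ n)) (by positivity)
  obtain ⟨h, hh, hho, K, hK, hKc⟩ := local_field hG c o B hφ'm hφ'1 (hφ'i.trans hmean) hs0 hs1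
  refine (compare_fields hG hreg hf hh o n).trans ?_
  refine add_le_add ?_ ?_
  · have hN := hh.norm_iter_le hG hd hreg o hs0 hs2 hK hKc n
    have h1' : ∫ ω, h o ω * h o ω ∂(lab V) ≤ 1 := by
      have : ∫ ω, h o ω * h o ω ∂(lab V) ≤ ∫ _ω, (1 : ℝ) ∂(lab V) := by
        refine integral_mono (hh.integrable_mul hh o o) (integrable_const _) fun ω => ?_
        show h o ω * h o ω ≤ 1
        have := abs_le.1 (hh.bdd o ω)
        nlinarith [this.1, this.2]
      simpa only [ge_iff_le, integral_const, probReal_univ, smul_eq_mul, mul_one] using this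
    have hCS := sq_integral_mul_le (P := lab V) (F := h o) (H := (adjF (G := G))^[n] h o)
      (hh.integrable_mul hh o o) ((hh.iter hreg n).integrable_mul (hh.iter hreg n) o o)
      (hh.integrable_mul (hh.iter hreg n) o o)
    have h4 : (0 : ℝ) ≤ (4 / s ^ 2) ^ n := by positivity
    have h5 : (∫ ω, h o ω * (adjF (G := G))^[n] h o ω ∂(lab V)) ^ 2 ≤ ((2 / s) ^ n) ^ 2 := by
      calc _ ≤ _ := hCS
        _ ≤ 1 * ((4 / s ^ 2) ^ n * 1) := by
            refine mul_le_mul h1' (hN.trans ?_) (integral_nonneg fun ω => mul_self_nonneg _)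
              (by norm_num)
            exact mul_le_mul_of_nonneg_left h1' h4
        _ = ((2 / s) ^ n) ^ 2 := by
            have e4 : (4 / s ^ 2 : ℝ) = (2 / s) ^ 2 := by ring
            rw [one_mul, mul_one, ← pow_mul, mul_comm n 2, pow_mul, e4]
    exact abs_le_of_sq_le_sq' h5 (by positivity) |>.2
  · have h6 : ∫ ω, |f o ω - h o ω| ∂(lab V) ≤ ε / (2 * (d : ℝ) ^ n) := by
      simp only [hho]
      exact hφ'e
    calc 2 * (d : ℝ) ^ n * ∫ ω, |f o ω - h o ω| ∂(lab V) ≤
          2 * (d : ℝ) ^ n * (ε / (2 * (d : ℝ) ^ n)) := mul_le_mul_of_nonneg_left h6 hd0.le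
      _ = ε := by field_simp

theorem integrable_sp (ν : Measure (V → ℤˣ)) [IsProbabilityMeasure ν] (u : V) :
    Integrable (fun σ => sp σ u) ν := by
  refine Integrable.of_bound (measurable_sp u).aestronglyMeasurable 1
    (Eventually.of_forall fun σ => ?_)
  rcases sp_eq_one_or σ u with h | h <;> simp [h]

theorem integrable_sp_sp (ν : Measure (V → ℤˣ)) [IsProbabilityMeasure ν] (u v : V) :
    Integrable (fun σ => sp σ u * sp σ v) ν := by
  refine Integrable.of_bound ((measurable_sp u).mul (measurable_sp v)).aestronglyMeasurable 1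
    (Eventually.of_forall fun σ => ?_)
  rcases sp_eq_one_or σ u with h | h <;> rcases sp_eq_one_or σ v with h' | h' <;> simp [h, h']

open Classical in
/-- the probability that both spins are `+1` -/
theorem real_pair (ν : Measure (V → ℤˣ)) [IsProbabilityMeasure ν] (u v : V) :
    4 * ν.real {σ | ∀ w ∈ ({u, v} : Finset V), σ w = (1 : V → ℤˣ) w} =
      1 + ∫ σ, sp σ u ∂ν + ∫ σ, sp σ v ∂ν + ∫ σ, sp σ u * sp σ v ∂ν := by
  have e1 : (1 : ℝ) = ∫ _σ, (1 : ℝ) ∂ν := by simp
  have i0 : Integrable (fun _ : V → ℤˣ => (1 : ℝ)) ν := integrable_const _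
  have i1 : Integrable (fun σ : V → ℤˣ => 1 + sp σ u) ν := i0.add (integrable_sp ν u)
  have i2 : Integrable (fun σ : V → ℤˣ => 1 + sp σ u + sp σ v) ν := i1.add (integrable_sp ν v)
  rw [← integral_indicator_one (measurableSet_cyl _ _), ← integral_const_mul]
  conv_rhs => rw [e1, ← integral_add i0 (integrable_sp ν u), ← integral_add i1 (integrable_sp ν v),
    ← integral_add i2 (integrable_sp_sp ν u v)]
  refine integral_congr_ae (Eventually.of_forall fun σ => ?_)
  simp only [Set.indicator, Set.mem_ofPred_eq, Finset.mem_insert, Finset.mem_singleton,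
    forall_eq_or_imp, forall_eq, Pi.one_apply, sp]
  rcases Int.units_eq_one_or (σ u) with h | h <;> rcases Int.units_eq_one_or (σ v) with h' | h' <;>
    simp [h, h']
  norm_num

theorem integral_sp_self (ν : Measure (V → ℤˣ)) [IsProbabilityMeasure ν] (u : V) :
    ∫ σ, sp σ u * sp σ u ∂ν = 1 := by
  have : ∀ σ : V → ℤˣ, sp σ u * sp σ u = 1 := fun σ => by
    rcases sp_eq_one_or σ u with h | h <;> simp [h]
  simp [this]

theorem nb_iter_tendsto [G.LocallyFinite] {ψ : ℕ → V → ℝ} {φ : V → ℝ}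
    (h : ∀ v, Tendsto (fun k => ψ k v) atTop (𝓝 (φ v))) (n : ℕ) (v : V) :
    Tendsto (fun k => (nb G)^[n] (ψ k) v) atTop (𝓝 ((nb G)^[n] φ v)) := by
  induction n generalizing v with
  | zero => exact h v
  | succ n ih =>
    simp only [Function.iterate_succ_apply']
    exact tendsto_finsetSum _ fun u _ => ih u

/-- the two-point function of a centred limit of factors of IID obeys the spectral bound -/
theorem limit_bound [G.LocallyFinite] (hG : G.IsTree) {d : ℕ} (hd : 2 ≤ d)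
    (hreg : G.IsRegularOfDegree d) {ν : ℕ → Measure (V → ℤˣ)} (hν : ∀ k, IsFactorOfIID G (ν k))
    {μ : Measure (V → ℤˣ)} [IsProbabilityMeasure μ]
    (hl : ∀ (D : Finset V) (η : V → ℤˣ), Tendsto (fun k => ν k {σ | ∀ v ∈ D, σ v = η v}) atTop
      (𝓝 (μ {σ | ∀ v ∈ D, σ v = η v})))
    (h0 : ∀ v, ∫ σ, sp σ v ∂μ = 0) (o : V) {s : ℝ} (hs0 : 0 < s)
    (hs1 : s ≤ 1) (hs2 : ((d : ℝ) - 1) * s ^ 2 = 1) (n : ℕ) :
    (nb G)^[n] (fun u => 1 / 4 * ∫ σ, sp σ o * sp σ u ∂μ) o ≤ (2 / s) ^ n := by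
  classical
  obtain ⟨c⟩ := exists_edgeCol hG (by omega) hreg
  choose Φ hΦ he hmap using hν
  have hp : ∀ k, IsProbabilityMeasure (ν k) := fun k => by
    rw [← hmap k]
    exact Measure.isProbabilityMeasure_map (hΦ k).aemeasurable
  have hr : ∀ u v, Tendsto (fun k => 1 + ∫ σ, sp σ u ∂(ν k) + ∫ σ, sp σ v ∂(ν k) +
      ∫ σ, sp σ u * sp σ v ∂(ν k)) atTop (𝓝 (1 + 0 + 0 + ∫ σ, sp σ u * sp σ v ∂μ)) := by
    intro u v
    have := ((ENNReal.tendsto_toReal (measure_ne_top _ _)).comp (hl {u, v} 1)).const_mul 4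
    have e := real_pair μ u v
    rw [h0, h0] at e
    rw [← e]
    refine this.congr fun k => ?_
    exact real_pair (ν k) u v
  have hm : ∀ u, Tendsto (fun k => ∫ σ, sp σ u ∂(ν k)) atTop (𝓝 0) := by
    intro u
    have := ((hr u u).sub_const 2).const_mul (1 / 2)
    simp only [integral_sp_self] at this
    rw [show (1 / 2 * (1 + 0 + 0 + 1 - 2) : ℝ) = 0 by norm_num] at this
    refine this.congr fun k => ?_
    ring
  have hc : ∀ u v, Tendsto (fun k => ∫ σ, sp σ u * sp σ v ∂(ν k)) atTop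
      (𝓝 (∫ σ, sp σ u * sp σ v ∂μ)) := by
    intro u v
    have := (((hr u v).sub_const 1).sub (hm u)).sub (hm v)
    rw [show 1 + 0 + 0 + ∫ σ, sp σ u * sp σ v ∂μ - 1 - 0 - 0 = ∫ σ, sp σ u * sp σ v ∂μ by ring]
      at this
    refine this.congr fun k => ?_
    ring
  let m : ℕ → ℝ := fun k => ∫ σ, sp σ o ∂(ν k)
  have hm1 : ∀ k, |m k| ≤ 1 := fun k => by
    have := norm_integral_le_of_norm_le_const (μ := ν k) (f := fun σ => sp σ o) (C := 1)
      (Eventually.of_forall fun σ => by rcases sp_eq_one_or σ o with h | h <;> simp [h])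
    simpa using this
  let f : ℕ → V → (V → unitInterval) → ℝ := fun k v ω => (sp (Φ k ω) v - m k) / 2
  have mf : ∀ k v, Measurable fun σ : V → ℤˣ => (sp σ v - m k) / 2 := fun k v =>
    ((measurable_sp v).sub_const _).div_const _
  have hf : ∀ k, Fld c 1 (f k) := by
    intro k
    refine ⟨fun v => (mf k v).comp (hΦ k), fun v ω => ?_, fun g _ v => ?_⟩
    · have := abs_le.1 (hm1 k)
      show |(sp (Φ k ω) v - m k) / 2| ≤ 1
      rw [abs_le]
      rcases sp_eq_one_or (Φ k ω) v with h | h <;> rw [h] <;> constructor <;>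
        linarith [this.1, this.2]
    · filter_upwards [he k g] with ω hω
      show (sp (Φ k (shft g ω)) (g v) - m k) / 2 = (sp (Φ k ω) v - m k) / 2
      have h2 : Φ k (shft g ω) = fun v => Φ k ω (g.symm v) := hω
      rw [h2]
      simp [sp]
  have hmean : ∀ k, ∫ ω, f k o ω ∂(lab V) = 0 := by
    intro k
    have : ∫ ω, f k o ω ∂(lab V) = ∫ σ, (sp σ o - m k) / 2 ∂(ν k) := by
      rw [← hmap k, integral_map (hΦ k).aemeasurable (mf k o).aestronglyMeasurable]
    rw [this, integral_div, integral_sub (integrable_sp _ o) (integrable_const _)]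
    simp [m]
  have hcov : ∀ k u, ∫ ω, f k o ω * f k u ω ∂(lab V) =
      1 / 4 * (∫ σ, sp σ o * sp σ u ∂(ν k) - m k * ∫ σ, sp σ u ∂(ν k)) := by
    intro k u
    have : ∫ ω, f k o ω * f k u ω ∂(lab V) =
        ∫ σ, (sp σ o - m k) / 2 * ((sp σ u - m k) / 2) ∂(ν k) := by
      have mm : Measurable fun σ : V → ℤˣ => (sp σ o - m k) / 2 * ((sp σ u - m k) / 2) :=
        (mf k o).mul (mf k u)
      rw [← hmap k, integral_map (hΦ k).aemeasurable mm.aestronglyMeasurable]
    have e : ∀ σ : V → ℤˣ, (sp σ o - m k) / 2 * ((sp σ u - m k) / 2) =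
        1 / 4 * (sp σ o * sp σ u - m k * sp σ u - (m k * sp σ o - m k * m k)) := fun σ => by ring
    have i1 : Integrable (fun σ => sp σ o * sp σ u - m k * sp σ u) (ν k) :=
      (integrable_sp_sp _ o u).sub ((integrable_sp _ u).const_mul _)
    have i2 : Integrable (fun σ => m k * sp σ o - m k * m k) (ν k) :=
      ((integrable_sp _ o).const_mul _).sub (integrable_const _)
    rw [this]
    simp only [e]
    rw [integral_const_mul, integral_sub i1 i2,
      integral_sub (integrable_sp_sp _ o u) ((integrable_sp _ u).const_mul _),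
      integral_sub ((integrable_sp _ o).const_mul _) (integrable_const _), integral_const_mul,
      integral_const_mul]
    simp [m]
  refine le_of_tendsto' (nb_iter_tendsto (G := G)
    (ψ := fun k u => ∫ ω, f k o ω * f k u ω ∂(lab V)) (fun u => ?_) n o) fun k => ?_
  · simp only [hcov]
    have := ((hc o u).sub ((hm o).mul (hm u))).const_mul (1 / 4)
    rwa [mul_zero, sub_zero] at this
  · rw [← (hf k).corr_iter hreg (hf k) o o n]
    exact spec_bound hG hd hreg (hf k) o (hmean k) hs0 hs1 hs2 n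

theorem not_limit [G.LocallyFinite] (hG : G.IsTree) {d : ℕ} (hd : 2 ≤ d)
    (hreg : G.IsRegularOfDegree d) {θ : ℝ} (h0 : 0 ≤ θ) (h1 : θ < 1)
    (hs : 1 < ((d : ℝ) - 1) * θ ^ 2) {μ : Measure (V → ℤˣ)}
    (hμ : IsFreeIsing G θ μ ∨ IsFreeIsing G (-θ) μ)
    {ν : ℕ → Measure (V → ℤˣ)} (hν : ∀ k, IsFactorOfIID G (ν k))
    (hl : ∀ (D : Finset V) (η : V → ℤˣ), Tendsto (fun k => ν k {σ | ∀ v ∈ D, σ v = η v}) atTop
      (𝓝 (μ {σ | ∀ v ∈ D, σ v = η v}))) : False := by
  have hprob : IsProbabilityMeasure μ := hμ.elim (·.isProb) (·.isProb)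
  have hz : ∀ v, ∫ σ, sp σ v ∂μ = 0 := fun v =>
    hμ.elim (integral_sp_eq_zero · v) (integral_sp_eq_zero · v)
  obtain ⟨o⟩ := hG.connected.nonempty
  have hθ : 0 < θ := h0.lt_of_ne (by rintro rfl; norm_num at hs)
  have hd1 : (0 : ℝ) < (d : ℝ) - 1 := by
    have : (2 : ℝ) ≤ d := by exact_mod_cast hd
    linarith
  set s : ℝ := 1 / Real.sqrt ((d : ℝ) - 1) with hsdef
  have hsq : 0 < Real.sqrt ((d : ℝ) - 1) := Real.sqrt_pos.2 hd1
  have hs0 : 0 < s := by positivity
  have hs2 : ((d : ℝ) - 1) * s ^ 2 = 1 := by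
    rw [hsdef, div_pow, one_pow, Real.sq_sqrt hd1.le]
    field_simp
  have hsθ : s < θ := by
    have h2 : ((d : ℝ) - 1) * s ^ 2 < ((d : ℝ) - 1) * θ ^ 2 := by rw [hs2]; exact hs
    exact lt_of_pow_lt_pow_left₀ 2 hθ.le (lt_of_mul_lt_mul_left h2 hd1.le)
  have hs1 : s ≤ 1 := (hsθ.trans h1).le
  obtain ⟨φ, hφo, hφle, hφe⟩ := exists_eigen hG hd hreg hθ h1 hs o
  set lam : ℝ := ((d : ℝ) - 1) * θ + 1 / θ with hlam
  have hlow : ∀ n : ℕ, Even n →
      lam ^ n * φ o ≤ (nb G)^[n] (fun u => ∫ σ, sp σ o * sp σ u ∂μ) o := by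
    intro n hn
    rw [← nb_iter_eigen hφe n o]
    rcases hμ with hμ | hμ
    · simp only [integral_sp_sp hG h0 h1 hμ]
      exact nb_iter_mono hφle n o
    · obtain ⟨sg, hsg⟩ := H391.exists_sign hG
      simp only [H391.integral_sp_sp_twm hG h0 h1 hsg hμ]
      rw [H391.nb_iter_sign hsg, hn.neg_one_pow, one_mul, H391.nb_iter_smul, ← mul_assoc,
        H391.sr_mul_self, one_mul]
      exact nb_iter_mono hφle n o
  have hgt : 1 < lam * s / 2 := by
    have h7 : lam * s / 2 - 1 = (θ / s - 1) ^ 2 * s / (2 * θ) := by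
      have h8 : (d : ℝ) - 1 = 1 / s ^ 2 := by
        field_simp
        linarith only [hs2]
      rw [hlam, h8]
      field_simp
      ring
    have h9 : 0 < (θ / s - 1) ^ 2 * s / (2 * θ) := by
      have : 0 < θ / s - 1 := by
        rw [sub_pos, lt_div_iff₀ hs0]
        linarith only [hsθ]
      positivity
    linarith only [h7, h9]
  have hall : ∀ n : ℕ, Even n → (lam * s / 2) ^ n * φ o ≤ 4 := by
    intro n hn
    have h9 := limit_bound hG hd hreg hν hl hz o hs0 hs1 hs2 n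
    rw [H391.nb_iter_smul] at h9
    have h10 : lam ^ n * φ o ≤ 4 * (2 / s) ^ n := by linarith only [hlow n hn, h9]
    have h11 : (lam * s / 2) ^ n * φ o = (lam ^ n * φ o) * (s / 2) ^ n := by
      rw [show lam * s / 2 = lam * (s / 2) by ring, mul_pow]
      ring
    rw [h11]
    calc (lam ^ n * φ o) * (s / 2) ^ n ≤ 4 * (2 / s) ^ n * (s / 2) ^ n :=
          mul_le_mul_of_nonneg_right h10 (by positivity)
      _ = 4 := by
          have : 2 / s * (s / 2) = 1 := by field_simp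
          rw [mul_assoc, ← mul_pow, this, one_pow, mul_one]
  obtain ⟨n, hn⟩ := pow_unbounded_of_one_lt (4 / φ o) hgt
  have h12 := hall (2 * n) ⟨n, by ring⟩
  have h13 : (lam * s / 2) ^ n ≤ (lam * s / 2) ^ (2 * n) :=
    pow_le_pow_right₀ hgt.le (by omega)
  rw [div_lt_iff₀ hφo] at hn
  have h14 := mul_le_mul_of_nonneg_right h13 hφo.le
  linarith only [hn, h12, h14]

end Vale.Agent.N161
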