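import Vale.Agent.N161.Ext
import Vale.Agent.N161.Limit

/-!
# P161: assembly
-/

open MeasureTheory Filter Topology

namespace Vale.Agent.N161

open Vale.Agent.P161 SimpleGraph

variable {V : Type*} {G : SimpleGraph V}

theorem isIsing_iff {θ : ℝ} {μ : Measure (V → ℤˣ)} :
    IsIsing G (fun _ => θ) μ ↔ IsFreeIsing G θ μ :=
  ⟨fun h => ⟨h.1, h.2⟩, fun h => ⟨h.1, h.2⟩⟩

theorem isIsing_unique (hG : G.IsTree) [G.LocallyFinite] {θ : Sym2 V → ℝ}
    {μ ν : Measure (V → ℤˣ)} (hμ : IsIsing G θ μ) (hν : IsIsing G θ ν) : μ = ν := by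
  classical
  have := msc_units
  have := hμ.1
  have := hν.1
  have : Nonempty V := hG.connected.nonempty
  have hcyl : ∀ (D : Finset V) (η : D → ℤˣ),
      (D.restrict : (V → ℤˣ) → (D → ℤˣ)) ⁻¹' {η} = {σ : V → ℤˣ | ∀ v ∈ D, σ v = ext1 D η v} := by
    intro D η
    ext σ
    simp only [Set.mem_preimage, Set.mem_singleton_iff, Set.mem_ofPred_eq]
    constructor
    · rintro rfl v hv
      rw [ext1_of_mem _ hv]
      rfl
    · intro h
      funext ⟨v, hv⟩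
      have := h v hv
      rw [ext1_of_mem _ hv] at this
      exact this
  have hconn : ∀ D : Finset V, (G.induce (D : Set V)).Connected →
      μ.map D.restrict = ν.map D.restrict := by
    intro D hD
    refine Measure.ext_of_singleton fun η => ?_
    rw [Measure.map_apply (Finset.measurable_restrict D) (measurableSet_singleton _),
      Measure.map_apply (Finset.measurable_restrict D) (measurableSet_singleton _), hcyl,
      hμ.2 _ hD, hν.2 _ hD]
  have hall : ∀ I : Finset V, μ.map I.restrict = ν.map I.restrict := by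
    intro I
    obtain ⟨D, hID, hD⟩ := exists_connected_superset hG I
    have e : (I.restrict : (V → ℤˣ) → (I → ℤˣ)) = Finset.restrict₂ hID ∘ D.restrict := rfl
    have h2 := hconn D hD
    rw [e, ← Measure.map_map (Finset.measurable_restrict₂ hID) (Finset.measurable_restrict D),
      ← Measure.map_map (Finset.measurable_restrict₂ hID) (Finset.measurable_restrict D), h2]
  have : ∀ I : Finset V, IsFiniteMeasure (ν.map (I.restrict : (V → ℤˣ) → (I → ℤˣ))) :=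
    fun I => inferInstance
  exact IsProjectiveLimit.unique (P := fun I => ν.map I.restrict) (fun I => hall I) (fun I => rfl)

theorem crit {d : ℕ} (hd : 3 ≤ d) : 0 < ((d : ℝ) - 1) ^ (-(1 / 2) : ℝ) ∧
    ((d : ℝ) - 1) * (((d : ℝ) - 1) ^ (-(1 / 2) : ℝ)) ^ 2 = 1 := by
  have hd1 : (0 : ℝ) < (d : ℝ) - 1 := by
    have : (3 : ℝ) ≤ d := by exact_mod_cast hd
    linarith
  refine ⟨Real.rpow_pos_of_pos hd1 _, ?_⟩
  rw [Real.rpow_neg hd1.le, ← Real.sqrt_eq_rpow, inv_pow, Real.sq_sqrt hd1.le,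
    mul_inv_cancel₀ hd1.ne']

theorem part1 {d : ℕ} (hd : 3 ≤ d) (hG : G.IsTree) (hr : ∀ v, (G.neighborSet v).ncard = d) :
    ∃ μ : ℝ → Measure (V → ℤˣ), (∀ β ν, IsIsing G (fun _ => Real.tanh β) ν ↔ ν = μ β) ∧
      {β : ℝ | 0 ≤ β ∧ IsFactorOfIID G (μ β)} =
        {β : ℝ | 0 ≤ β ∧ Real.tanh β ≤ ((d : ℝ) - 1) ^ (-(1 / 2) : ℝ)} :=
  (P161T11.main d hd G hG hr).imp fun _ h =>
    ⟨fun β ν => isIsing_iff.trans (h.2.1 β ν), h.2.2.2.1⟩

theorem part2 {d : ℕ} (hd : 3 ≤ d) (hG : G.IsTree) (hdeg : ∀ v, (G.neighborSet v).encard ≤ d)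
    (θ : Sym2 V → ℝ) (hθ : ∀ e ∈ G.edgeSet, |θ e| ≤ ((d : ℝ) - 1) ^ (-(1 / 2) : ℝ)) :
    ∃ (Φ : (V → unitInterval) → V → ℤˣ) (F : ℕ → (V → unitInterval) → V → ℤˣ),
      IsRule G θ Φ ∧
      (∀ ν, IsIsing G θ ν ↔
        ν = (Measure.infinitePi fun _ : V => (volume : Measure unitInterval)).map Φ) ∧
      (∀ k, IsRule G θ (F k) ∧ HasRadius G k (F k)) ∧
      ∀ᵐ x ∂(Measure.infinitePi fun _ : V => (volume : Measure unitInterval)), ∀ v,
        ∀ᶠ k in atTop, F k x v = Φ x v := by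
  have lf : G.LocallyFinite := fun v => (Set.finite_of_encard_le_coe (hdeg v)).fintype
  obtain ⟨Φ, hΦ, he, hI⟩ := general hG hd hdeg (crit hd).1 (crit hd).2 hθ
  obtain ⟨F, Ψ, hF, hΨ, hl, hc⟩ := strict hG hΦ he
  rw [← hl] at hI
  exact ⟨Ψ, F, hΨ, fun ν => ⟨fun h => isIsing_unique hG h hI, fun h => h ▸ hI⟩, hF, hc⟩

theorem part3 {d : ℕ} (hd : 3 ≤ d) (hG : G.IsTree) (hr : ∀ v, (G.neighborSet v).ncard = d)
    (β : ℝ) (μ : Measure (V → ℤˣ)) (hμ : IsIsing G (fun _ => Real.tanh β) μ)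
    (hβ : ((d : ℝ) - 1) ^ (-(1 / 2) : ℝ) < |Real.tanh β|) (ν : ℕ → Measure (V → ℤˣ))
    (hν : ∀ k, IsFactorOfIID G (ν k)) :
    ¬ ∀ (D : Finset V) (η : V → ℤˣ), Tendsto (fun k => ν k {σ | ∀ v ∈ D, σ v = η v}) atTop
      (𝓝 (μ {σ | ∀ v ∈ D, σ v = η v})) := by
  have lf : G.LocallyFinite := fun v => (Set.finite_of_ncard_pos (by rw [hr]; omega)).fintype
  have reg : G.IsRegularOfDegree d := fun v => by
    rw [← card_neighborSet_eq_degree, ← Nat.card_eq_fintype_card]; exact hr v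
  have hd1 : (0 : ℝ) < (d : ℝ) - 1 := by
    have : (3 : ℝ) ≤ d := by exact_mod_cast hd
    linarith
  refine not_limit hG (by omega) reg (abs_nonneg _) (Real.abs_tanh_lt_one β) ?_ ?_ hν
  · exact (crit hd).2.symm.trans_lt
      (mul_lt_mul_of_pos_left (pow_lt_pow_left₀ hβ (crit hd).1.le two_ne_zero) hd1)
  · rw [isIsing_iff] at hμ
    rcases abs_cases (Real.tanh β) with ⟨h, -⟩ | ⟨h, -⟩
    · left; rwa [h]
    · right; rwa [h, neg_neg]

end Vale.Agent.N161
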