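import Vale.Agent.N161.Defs
import Vale.Agent.P161T11.Final

/-!
# P161: every factor of IID on a locally finite tree is an almost sure limit of local rules
-/

open MeasureTheory Filter Topology

namespace Vale.Agent.N161

open Vale.Agent.P161

variable {V : Type*} {G : SimpleGraph V}

/-- the automorphism `g` preserves the couplings -/
def Keeps (G : SimpleGraph V) (J : Sym2 V → ℝ) (g : G ≃g G) : Prop :=
  ∀ u v, G.Adj u v → J s(g u, g v) = J s(u, v)

theorem Keeps.trans {J : Sym2 V → ℝ} {g h : G ≃g G} (a : Keeps G J g) (b : Keeps G J h) :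
    Keeps G J (g.trans h) := fun u v e => (b _ _ (g.map_adj_iff.2 e)).trans (a u v e)

theorem Keeps.symm {J : Sym2 V → ℝ} {g : G ≃g G} (a : Keeps G J g) : Keeps G J g.symm := by
  intro u v e
  have := a _ _ (g.symm.map_adj_iff.2 e)
  rw [g.apply_symm_apply, g.apply_symm_apply] at this
  exact this.symm

/-- the restrictions to `B` of the automorphisms which send `o` to `v` -/
def rs (G : SimpleGraph V) (J : Sym2 V → ℝ) (o : V) (B : Finset V) (v : V) : Set (B → V) :=
  {s | ∃ g : G ≃g G, Keeps G J g ∧ g o = v ∧ s = fun i : B => g i}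

theorem rs_finite [G.LocallyFinite] (hG : G.Connected) (J : Sym2 V → ℝ) (o : V) (B : Finset V)
    (v : V) : (rs G J o B v).Finite := by
  refine (Set.Finite.pi' (fun i : B => finite_closedBall hG v (G.dist o i))).subset ?_
  rintro s ⟨g, -, rfl, rfl⟩ i
  exact (dist_aut hG g o i).le

variable [G.LocallyFinite] {J : Sym2 V → ℝ}

/-- the symmetrised local function -/
noncomputable def av (hG : G.Connected) (J : Sym2 V → ℝ) (o : V) (B : Finset V)
    (φ : (B → unitInterval) → ℝ) (x : V → unitInterval) (v : V) : ℝ :=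
  ∑ s ∈ (rs_finite hG J o B v).toFinset, φ (fun i => x (s i))

theorem av_shft (hG : G.Connected) (o : V) (B : Finset V) (φ : (B → unitInterval) → ℝ)
    {g : G ≃g G} (hg : Keeps G J g) (x : V → unitInterval) (v : V) :
    av hG J o B φ (fun u => x (g.symm u)) v = av hG J o B φ x (g.symm v) := by
  unfold av
  refine Finset.sum_nbij' (fun s i => g.symm (s i)) (fun s i => g (s i)) ?_ ?_ ?_ ?_ ?_
  · intro s hs
    rw [Set.Finite.mem_toFinset] at hs ⊢
    obtain ⟨h, k, rfl, rfl⟩ := hs
    exact ⟨h.trans g.symm, k.trans hg.symm, rfl, rfl⟩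
  · intro s hs
    rw [Set.Finite.mem_toFinset] at hs ⊢
    obtain ⟨h, k, e, rfl⟩ := hs
    refine ⟨h.trans g, k.trans hg, ?_, rfl⟩
    show g (h o) = v
    rw [e, g.apply_symm_apply]
  · intro s _
    funext i
    exact g.apply_symm_apply _
  · intro s _
    funext i
    exact g.symm_apply_apply _
  · intro s _
    rfl

theorem av_meas (hG : G.Connected) (o : V) (B : Finset V) {φ : (B → unitInterval) → ℝ}
    (hφ : Measurable φ) (v : V) : Measurable fun x => av hG J o B φ x v :=
  Finset.measurable_sum _ fun _ _ =>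
    hφ.comp (measurable_pi_lambda _ fun _ => measurable_pi_apply _)

theorem av_local (hG : G.Connected) (o : V) (B : Finset V) (φ : (B → unitInterval) → ℝ) {k : ℕ}
    (hB : ∀ i ∈ B, G.dist o i ≤ k) (v : V) (x y : V → unitInterval)
    (h : ∀ u, G.dist v u ≤ k → x u = y u) : av hG J o B φ x v = av hG J o B φ y v := by
  unfold av
  refine Finset.sum_congr rfl fun s hs => ?_
  rw [Set.Finite.mem_toFinset] at hs
  obtain ⟨g, -, rfl, rfl⟩ := hs
  refine congrArg φ (funext fun i => h _ ?_)
  rw [dist_aut hG]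
  exact hB i i.2

theorem av_err (hG : G.Connected) {Φ : (V → unitInterval) → V → ℤˣ} (hΦ : Measurable Φ)
    (he : ∀ g : G ≃g G, Keeps G J g →
      ∀ᵐ x ∂(lab V), Φ (fun v => x (g.symm v)) = fun v => Φ x (g.symm v))
    (o : V) (B : Finset V) {φ : (B → unitInterval) → ℝ} (hφ : Measurable φ)
    (hφ1 : ∀ x, |φ x| ≤ 1) {δ : ℝ}
    (hδ : ∫ ω, |sp (Φ ω) o - φ (B.restrict ω)| ∂(lab V) ≤ δ) {v : V}
    (hv : ∃ g : G ≃g G, Keeps G J g ∧ g o = v) :
    (lab V).real {x | (if av hG J o B φ x v < 0 then -1 else 1) ≠ Φ x v} ≤ δ := by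
  set S := (rs_finite hG J o B v).toFinset with hS
  have hN : (0 : ℝ) < S.card := by
    obtain ⟨g, hk, hg⟩ := hv
    have : S.Nonempty :=
      ⟨fun i => g i, by rw [hS, Set.Finite.mem_toFinset]; exact ⟨g, hk, hg, rfl⟩⟩
    exact_mod_cast this.card_pos
  have m : ∀ s : B → V, Measurable fun x : V → unitInterval =>
      |sp (Φ x) v - φ (fun i => x (s i))| := fun s =>
    (((measurable_sp v).comp hΦ).sub
      (hφ.comp (measurable_pi_lambda _ fun _ => measurable_pi_apply _))).abs
  have it : ∀ s : B → V, Integrable (fun x : V → unitInterval =>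
      |sp (Φ x) v - φ (fun i => x (s i))|) (lab V) := fun s => by
    refine Integrable.of_bound (m s).aestronglyMeasurable 2 (Eventually.of_forall fun x => ?_)
    rw [Real.norm_eq_abs, abs_abs, abs_le]
    have := abs_le.1 (hφ1 fun i => x (s i))
    rcases sp_eq_one_or (Φ x) v with h | h <;> rw [h] <;> constructor <;> linarith [this.1, this.2]
  have each : ∀ s ∈ S, ∫ x, |sp (Φ x) v - φ (fun i => x (s i))| ∂(lab V) ≤ δ := by
    intro s hs
    rw [hS, Set.Finite.mem_toFinset] at hs
    obtain ⟨g, hk, rfl, rfl⟩ := hs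
    refine le_trans (le_of_eq ?_) hδ
    have hmp := mp_shft g
    conv_lhs => rw [← hmp.map_eq]
    rw [integral_map hmp.measurable.aemeasurable (m _).aestronglyMeasurable]
    refine integral_congr_ae ?_
    filter_upwards [he g hk] with ω hω
    have h2 : Φ (shft g ω) = fun v => Φ ω (g.symm v) := hω
    have h3 : (fun i : B => shft g ω (g i)) = B.restrict ω := by
      funext i
      show ω (g.symm (g i)) = ω i
      rw [g.symm_apply_apply]
    have h4 : sp (Φ (shft g ω)) (g o) = sp (Φ ω) o := by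
      rw [h2]
      unfold sp
      beta_reduce
      rw [g.symm_apply_apply]
    rw [h3, h4]
  have tot : ∫ x, ∑ s ∈ S, |sp (Φ x) v - φ (fun i => x (s i))| ∂(lab V) ≤ S.card * δ := by
    rw [integral_finsetSum _ fun s _ => it s]
    refine (Finset.sum_le_sum each).trans (le_of_eq ?_)
    rw [Finset.sum_const, nsmul_eq_mul]
  have mk := mul_meas_ge_le_integral_of_nonneg (μ := lab V)
    (f := fun x => ∑ s ∈ S, |sp (Φ x) v - φ (fun i => x (s i))|)
    (Eventually.of_forall fun x => Finset.sum_nonneg fun _ _ => abs_nonneg _)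
    (integrable_finsetSum _ fun s _ => it s) (S.card : ℝ)
  refine le_of_mul_le_mul_left (le_trans ?_ (mk.trans tot)) hN
  refine mul_le_mul_of_nonneg_left (measureReal_mono fun x hx => ?_) hN.le
  have hx' : (if av hG J o B φ x v < 0 then -1 else 1) ≠ Φ x v := hx
  show (S.card : ℝ) ≤ ∑ s ∈ S, |sp (Φ x) v - φ (fun i => x (s i))|
  refine le_trans ?_ (Finset.abs_sum_le_sum_abs _ _)
  rw [Finset.sum_sub_distrib, Finset.sum_const, nsmul_eq_mul]
  change (S.card : ℝ) ≤ |S.card * sp (Φ x) v - av hG J o B φ x v|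
  rcases Int.units_eq_one_or (Φ x v) with h | h
  · have e : sp (Φ x) v = 1 := by unfold sp; rw [h]; simp
    by_cases c : av hG J o B φ x v < 0
    · rw [e]
      exact le_trans (by linarith) (le_abs_self _)
    · rw [if_neg c, h] at hx'
      exact absurd rfl hx'
  · have e : sp (Φ x) v = -1 := by unfold sp; rw [h]; simp
    by_cases c : av hG J o B φ x v < 0
    · rw [if_pos c, h] at hx'
      exact absurd rfl hx'
    · rw [e]
      exact le_trans (by linarith) (neg_le_abs _)

theorem measurable_sign {Ω : Type*} [MeasurableSpace Ω] {P : Ω → Prop} [DecidablePred P]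
    (hP : MeasurableSet {x | P x}) (a b : ℤˣ) : Measurable fun x => if P x then a else b :=
  Measurable.ite hP measurable_const measurable_const

/-- every factor of IID is the law of a rule which commutes with all automorphisms on all inputs
and is an almost sure limit of such rules of finite radius -/
theorem strict (hG : G.IsTree) {Φ : (V → unitInterval) → V → ℤˣ} (hΦ : Measurable Φ)
    (he : ∀ g : G ≃g G, Keeps G J g →
      ∀ᵐ x ∂(lab V), Φ (fun v => x (g.symm v)) = fun v => Φ x (g.symm v)) :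
    ∃ (F : ℕ → (V → unitInterval) → V → ℤˣ) (Ψ : (V → unitInterval) → V → ℤˣ),
      (∀ k, IsRule G J (F k) ∧ HasRadius G k (F k)) ∧ IsRule G J Ψ ∧
      Measure.map Ψ (lab V) = Measure.map Φ (lab V) ∧
      ∀ᵐ x ∂(lab V), ∀ v, ∀ᶠ k in atTop, F k x v = Ψ x v := by
  classical
  have hc := hG.connected
  have : Nonempty V := hc.nonempty
  have : Countable V := countable_of_tree hG
  obtain ⟨r, hr, hrg⟩ : ∃ r : V → V, (∀ v, ∃ g : G ≃g G, Keeps G J g ∧ g (r v) = v) ∧
      ∀ g : G ≃g G, Keeps G J g → ∀ v, r (g.symm v) = r v := by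
    refine ⟨fun v => Classical.epsilon fun o => ∃ g : G ≃g G, Keeps G J g ∧ g o = v,
      fun v => ?_, fun g hg v => ?_⟩
    · exact Classical.epsilon_spec (p := fun o => ∃ g : G ≃g G, Keeps G J g ∧ g o = v)
        ⟨v, RelIso.refl _, fun _ _ _ => rfl, rfl⟩
    · refine congrArg Classical.epsilon (funext fun o => propext ⟨?_, ?_⟩)
      · rintro ⟨h, k, e⟩
        refine ⟨h.trans g, k.trans hg, ?_⟩
        show g (h o) = v
        rw [e, g.apply_symm_apply]
      · rintro ⟨h, k, rfl⟩
        exact ⟨h.trans g.symm, k.trans hg.symm, rfl⟩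
  have ap : ∀ (o : V) (j : ℕ), ∃ (B : Finset V) (φ : (B → unitInterval) → ℝ), Measurable φ ∧
      (∀ x, |φ x| ≤ 1) ∧ ∫ ω, |sp (Φ ω) o - φ (B.restrict ω)| ∂(lab V) ≤ (1 / 2) ^ j := by
    intro o j
    obtain ⟨B, φ, a, b, -, c⟩ := local_approx hG o (F := fun ω => sp (Φ ω) o)
      ((measurable_sp o).comp hΦ)
      (fun ω => by rcases sp_eq_one_or (Φ ω) o with h | h <;> simp [h])
      (δ := (1 / 2) ^ j) (by positivity)
    exact ⟨B, φ, a, b, c⟩
  choose B φ hφ hφ1 hδ using ap
  let P : V → ℕ → ℕ → Prop := fun o k j => ∀ i ∈ B o j, G.dist o i ≤ k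
  let N : V → ℕ → ℕ := fun o k => Nat.findGreatest (P o k) k
  let A : V → ℕ → (V → unitInterval) → V → ℝ := fun o j x v => av hc J o (B o j) (φ o j) x v
  let F : ℕ → (V → unitInterval) → V → ℤˣ := fun k x v =>
    if P (r v) k (N (r v) k) ∧ A (r v) (N (r v) k) x v < 0 then -1 else 1
  have hF : ∀ k, IsRule G J (F k) ∧ HasRadius G k (F k) := by
    intro k
    refine ⟨⟨measurable_pi_lambda _ fun v => measurable_sign ?_ _ _, fun g hg x => ?_⟩,
      fun v x y hxy => ?_⟩
    · exact (MeasurableSet.const _).inter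
        (measurableSet_lt (av_meas hc _ _ (hφ _ _) v) measurable_const)
    · funext v
      have hA : ∀ o j, A o j (fun u => x (g.symm u)) v = A o j x (g.symm v) :=
        fun o j => av_shft _ _ _ _ hg x v
      simp only [F, hrg g hg, hA]
    · by_cases c : P (r v) k (N (r v) k)
      · simp only [F, A, av_local hc _ _ _ c v x y hxy]
      · simp only [F, c, false_and, if_false]
  have hJ : ∀ o j, ∀ᶠ k in atTop, P o k (N o k) ∧ j ≤ N o k := by
    intro o j
    filter_upwards [eventually_ge_atTop j,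
      eventually_ge_atTop ((B o j).sup fun i => G.dist o i)] with k h1 h2
    have : P o k j := fun i hi => (Finset.le_sup (f := fun i => G.dist o i) hi).trans h2
    exact ⟨Nat.findGreatest_spec h1 this, Nat.le_findGreatest h1 this⟩
  have conv : ∀ᵐ x ∂(lab V), ∀ v, ∀ᶠ k in atTop, F k x v = Φ x v := by
    rw [ae_all_iff]
    intro v
    have bc := ae_eventually_notMem (μ := lab V)
      (s := fun j => {x | (if A (r v) j x v < 0 then -1 else 1) ≠ Φ x v}) (by
        refine ne_top_of_le_ne_top (b := ∑' j : ℕ, ENNReal.ofReal ((1 / 2) ^ j)) ?_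
          (ENNReal.tsum_le_tsum fun j => ?_)
        · rw [← ENNReal.ofReal_tsum_of_nonneg (fun j => by positivity) summable_geometric_two]
          exact ENNReal.ofReal_ne_top
        · rw [← ofReal_measureReal]
          exact ENNReal.ofReal_le_ofReal
            (av_err hc hΦ he (r v) _ (hφ _ j) (hφ1 _ j) (hδ _ j) (hr v)))
    filter_upwards [bc] with x hx
    obtain ⟨j, hj⟩ := eventually_atTop.1 hx
    filter_upwards [hJ (r v) j] with k hk
    have := hj _ hk.2
    simp only [ne_eq, not_not] at this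
    simp only [F, hk.1, true_and]
    exact this
  let Ψ : (V → unitInterval) → V → ℤˣ := fun x v => if ∀ᶠ k in atTop, F k x v = 1 then 1 else -1
  have hΨ : ∀ x v, (∀ᶠ k in atTop, F k x v = Φ x v) → Ψ x v = Φ x v := by
    intro x v h
    rcases Int.units_eq_one_or (Φ x v) with e | e
    · rw [e] at h ⊢
      exact if_pos h
    · rw [e] at h ⊢
      refine if_neg fun h' => ?_
      obtain ⟨k, a, b⟩ := (h.and h').exists
      exact absurd (a.symm.trans b) (by decide)
  refine ⟨F, Ψ, hF, ⟨measurable_pi_lambda _ fun v => measurable_sign ?_ _ _,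
    fun g hg x => ?_⟩, ?_, ?_⟩
  · have : {x | ∀ᶠ k in atTop, F k x v = 1} = ⋃ M, ⋂ k, ⋂ (_ : k ≥ M), {x | F k x v = 1} := by
      ext x
      simp only [eventually_atTop, Set.mem_ofPred_eq, Set.mem_iUnion, Set.mem_iInter]
    rw [this]
    exact MeasurableSet.iUnion fun M => MeasurableSet.iInter fun k => MeasurableSet.iInter fun _ =>
      ((measurable_pi_apply v).comp (hF k).1.1) (measurableSet_singleton_unitsInt 1)
  · funext v
    simp only [Ψ, fun k => (hF k).1.2 g hg x]
  · refine Measure.map_congr ?_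
    filter_upwards [conv] with x hx
    exact funext fun v => hΨ x v (hx v)
  · filter_upwards [conv] with x hx v
    rw [hΨ x v (hx v)]
    exact hx v

end Vale.Agent.N161
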