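import Vale.Agent.N161.Edge
import Vale.Agent.N161.Local

/-!
# P161: edge dependent couplings on the regular tree, by a random change of gauge
-/

open MeasureTheory Filter Topology

namespace Vale.Agent.N161

open Vale.Agent.P161 Vale.Agent.P161.H391

variable {V : Type*} {G : SimpleGraph V}

theorem twO_shift (g : G ≃g G) (s : V → ℤˣ) (ω : Om V) :
    twO (fun u => s (g.symm u)) (shift g ω) = shift g (twO s ω) := rfl

theorem twO_neg (s : V → ℤˣ) (ω : Om V) :
    twO (fun u => -1 * s u) ω = twO (fun _ => -1) (twO s ω) := by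
  refine Prod.ext rfl (funext fun i => ?_)
  simp only [twO, twU]
  rcases Int.units_eq_one_or (s i.1) with h | h <;> simp [h]

theorem mp_skew {Ω : Type*} [MeasurableSpace Ω] (Q : Measure Ω) [IsProbabilityMeasure Q]
    {S : Ω → V → ℤˣ} (hS : Measurable S) :
    MeasurePreserving (fun q : Ω × Om V => (q.1, twO (S q.1) q.2)) (Q.prod (PP V))
      (Q.prod (PP V)) := by
  classical
  refine (MeasurePreserving.id Q).skew_product (g := fun y ω => twO (S y) ω) ?_
    (Eventually.of_forall fun y => (mp_twO (S y)).map_eq)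
  refine Measurable.prodMk (measurable_fst.comp measurable_snd)
    (measurable_pi_lambda _ fun i => ?_)
  have m : Measurable fun q : Ω × Om V => q.2.2 i :=
    (measurable_pi_apply i).comp (measurable_snd.comp measurable_snd)
  exact Measurable.ite (((measurable_pi_apply i.1).comp (hS.comp measurable_fst))
    (measurableSet_singleton_unitsInt 1)) m (unitInterval.measurable_symm.comp m)

/-- decoding of one label at each vertex into three independent families -/
theorem exists_three (G : SimpleGraph V) : ∃ E : (V → unitInterval) → (V → unitInterval) × Om V,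
    MeasurePreserving E (lab V) ((lab V).prod (PP V)) ∧
      ∀ (g : G ≃g G) x, E (shft g x) = (shft g (E x).1, shift g (E x).2) := by
  obtain ⟨Ξ, hΞ, hΞl⟩ := exists_decode
  let D : (V → unitInterval) → (V × ℕ → unitInterval) := fun x p => Ξ (x p.1) p.2
  have hD : Measurable D := measurable_pi_iff.2 fun p =>
    (measurable_pi_apply p.2).comp (hΞ.comp (measurable_pi_apply p.1))
  have hDl : Measure.map D (lab V) = noise V := by
    have h1 := Measure.infinitePi_map_pi (fun _ : V => (volume : Measure unitInterval))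
      (f := fun _ => Ξ) (fun _ => hΞ)
    have h2 := Measure.infinitePi_map_curry_symm
      (fun (_ : V) (_ : ℕ) => (volume : Measure unitInterval))
    rw [hΞl] at h1
    have hm : Measurable (fun (x : V → unitInterval) (i : V) => Ξ (x i)) :=
      measurable_pi_iff.2 fun v => hΞ.comp (measurable_pi_apply v)
    rw [← h1, Measure.map_map (MeasurableEquiv.curry V ℕ unitInterval).symm.measurable hm] at h2
    exact h2
  have a : MeasurePreserving D (lab V) (noise V) := ⟨hD, hDl⟩
  have b : MeasurePreserving unpack (noise V) ((lab V).prod (noise V)) :=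
    ⟨measurable_unpack, map_unpack⟩
  have c : MeasurePreserving unpack2 (noise V) (PP V) := ⟨measurable_unpack2, map_unpack2⟩
  exact ⟨_, (((MeasurePreserving.id (lab V)).prod c).comp b).comp a, fun _ _ => rfl⟩

theorem mix [G.LocallyFinite] (hG : G.IsTree) {d : ℕ} (hd : 3 ≤ d)
    (hreg : G.IsRegularOfDegree d) {θ : ℝ} (h0 : 0 < θ) (hcrit : ((d : ℝ) - 1) * θ ^ 2 = 1)
    {J : Sym2 V → ℝ} (hJ : ∀ e ∈ G.edgeSet, |J e| ≤ θ) :
    ∃ Φ : (V → unitInterval) → V → ℤˣ, Measurable Φ ∧ (∀ g : G ≃g G, Keeps G J g →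
      ∀ᵐ x ∂(lab V), Φ (fun v => x (g.symm v)) = fun v => Φ x (g.symm v)) ∧
      IsIsing G J (Measure.map Φ (lab V)) := by
  classical
  have : Countable V := countable_of_tree hG
  have h1 := theta_lt_one hd hcrit
  obtain ⟨μ, hμ⟩ := exists_isFreeIsing' hG (θ := θ) (by linarith) h1.le
  obtain ⟨Ψ, hΨ, hlaw, hequ, hodd⟩ := odd_critical hG hd hreg h0 hcrit hμ
  obtain ⟨κ, hκ, hκl⟩ := exists_kappa
  obtain ⟨s, hs, hse⟩ := exists_gauge hG (fun y e => cs (J e / θ) (ew κ y e))
    fun e => (measurable_cs _).comp (measurable_ew hκ e)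
  obtain ⟨E, hE, hEg⟩ := exists_three G
  have hsv : ∀ v, Measurable fun y u => s y v * s y u := fun v =>
    measurable_pi_lambda _ fun u =>
      ((measurable_pi_apply v).comp hs).mul ((measurable_pi_apply u).comp hs)
  let Θ : (V → unitInterval) × Om V → V → ℤˣ := fun q v =>
    Ψ (twO (fun u => s q.1 v * s q.1 u) q.2) v
  have hΘ : Measurable Θ := measurable_pi_lambda _ fun v => (measurable_pi_apply v).comp
    (hΨ.comp (measurable_snd.comp (mp_skew (lab V) (hsv v)).measurable))
  have push : ∀ {S : (V → unitInterval) → V → ℤˣ}, Measurable S → ∀ {p : Om V → Prop},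
      (∀ᵐ ω ∂(PP V), p ω) → ∀ᵐ q ∂((lab V).prod (PP V)), p (twO (S q.1) q.2) := by
    intro S hS p hp
    exact (measurePreserving_snd.comp (mp_skew (lab V) hS)).quasiMeasurePreserving.ae hp
  refine ⟨Θ ∘ E, hΘ.comp hE.measurable, fun g hg => ?_, ?_⟩
  · have h2 : ∀ᵐ q ∂((lab V).prod (PP V)), ∀ v,
        Ψ (shift g (twO (fun u => s q.1 v * s q.1 u) q.2)) =
          fun w => Ψ (twO (fun u => s q.1 v * s q.1 u) q.2) (g.symm w) :=
      ae_all_iff.2 fun v => push (hsv v) (hequ g)
    filter_upwards [hE.quasiMeasurePreserving.ae h2] with x hx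
    funext v
    show Θ (E (shft g x)) v = Θ (E x) (g.symm v)
    rw [hEg]
    have e : (fun u => s (shft g (E x).1) v * s (shft g (E x).1) u) =
        fun u => (fun w => s (E x).1 (g.symm v) * s (E x).1 w) (g.symm u) := by
      funext u
      refine gauge_unique hG.connected (s' := fun w => s (E x).1 (g.symm w)) (fun a b h => ?_) v u
      rw [hse _ a b h, hse _ _ _ (g.symm.map_adj_iff.2 h), hg.symm a b h]
      rfl
    show Ψ (twO (fun u => s (shft g (E x).1) v * s (shft g (E x).1) u) (shift g (E x).2)) v = _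
    rw [e, twO_shift g (fun w => s (E x).1 (g.symm v) * s (E x).1 w), hx]
  rw [← Measure.map_map hΘ hE.measurable, hE.map_eq]
  refine ⟨Measure.isProbabilityMeasure_map hΘ.aemeasurable, fun D hD η => ?_⟩
  let T : (V → unitInterval) × Om V → V → ℤˣ := fun q => tw (s q.1) (Ψ q.2)
  have hT : Measurable T := measurable_pi_lambda _ fun v =>
    ((measurable_pi_apply v).comp (hs.comp measurable_fst)).mul
      ((measurable_pi_apply v).comp (hΨ.comp measurable_snd))
  have e1 : Measure.map Θ ((lab V).prod (PP V)) = Measure.map T ((lab V).prod (PP V)) := by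
    conv_rhs => rw [← (mp_skew (lab V) hs).map_eq,
      Measure.map_map hT (mp_skew (lab V) hs).measurable]
    refine Measure.map_congr ?_
    filter_upwards [push hs hodd] with q hq
    funext v
    show Ψ (twO (fun u => s q.1 v * s q.1 u) q.2) v = s q.1 v * Ψ (twO (s q.1) q.2) v
    rcases Int.units_eq_one_or (s q.1 v) with h | h
    · simp only [h, one_mul]
    · rw [h, twO_neg, hq, Pi.neg_apply, neg_one_mul]
  set F := D.sym2.filter (fun e => e ∈ G.edgeSet) with hF
  have hFe : ∀ e ∈ F, e ∈ G.edgeSet := fun e he => (Finset.mem_filter.1 he).2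
  let c : Sym2 V → ℝ := fun e => θ * (((e.map η).mul : ℤ) : ℝ)
  let h : Sym2 V → UnitAddCircle → ℝ := fun e z => (1 + c e * ((cs (J e / θ) z : ℤ) : ℝ)) / 2
  have hm : ∀ e, Measurable (h e) := fun e =>
    (measurable_of_countable fun a : ℤˣ => (1 + c e * ((a : ℤ) : ℝ)) / 2).comp (measurable_cs _)
  have hb : ∀ e z, 0 ≤ h e z ∧ h e z ≤ 1 := by
    intro e z
    simp only [h, c]
    rcases Int.units_eq_one_or (e.map η).mul with a | a <;>
      rcases Int.units_eq_one_or (cs (J e / θ) z) with b | b <;> rw [a, b] <;> push_cast <;>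
      constructor <;> linarith
  have e2 : ∀ y, PP V (Prod.mk y ⁻¹' (T ⁻¹' {σ | ∀ v ∈ D, σ v = η v})) =
      ENNReal.ofReal (1 / 2 * ∏ e ∈ F, h e (ew κ y e)) := by
    intro y
    have e3 : Prod.mk y ⁻¹' (T ⁻¹' {σ | ∀ v ∈ D, σ v = η v}) =
        Ψ ⁻¹' {σ | ∀ v ∈ D, σ v = tw (s y) η v} := by
      ext ω
      simp only [Set.mem_preimage, Set.mem_ofPred_eq, T, tw]
      refine forall₂_congr fun v _ => ⟨fun k => ?_, fun k => ?_⟩
      · rw [← k, ← mul_assoc, Int.units_mul_self, one_mul]
      · rw [k, ← mul_assoc, Int.units_mul_self, one_mul]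
    rw [e3, ← Measure.map_apply hΨ (measurableSet_cyl _ _), hlaw, hμ.marginal D hD]
    refine congrArg (fun t => ENNReal.ofReal (1 / 2 * t)) (Finset.prod_congr rfl fun e he => ?_)
    have he' := hFe e he
    induction e using Sym2.ind with
    | _ u v =>
      simp only [h, c, ← hse y u v he', Sym2.map_mk, Sym2.mul_mk, tw]
      push_cast
      ring
  have mI : Measurable fun y : V → unitInterval => 1 / 2 * ∏ e ∈ F, h e (ew κ y e) :=
    (Finset.measurable_fun_prod _ fun e _ => (hm e).comp (measurable_ew hκ e)).const_mul _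
  have iI : Integrable (fun y : V → unitInterval => 1 / 2 * ∏ e ∈ F, h e (ew κ y e)) (lab V) := by
    refine Integrable.of_bound mI.aestronglyMeasurable 1 (Eventually.of_forall fun y => ?_)
    have a := Finset.prod_nonneg fun e (_ : e ∈ F) => (hb e (ew κ y e)).1
    have b := Finset.prod_le_one (fun e (_ : e ∈ F) => (hb e (ew κ y e)).1)
      fun e _ => (hb e (ew κ y e)).2
    rw [Real.norm_eq_abs, abs_le]
    constructor <;> linarith
  rw [e1, Measure.map_apply hT (measurableSet_cyl _ _),
    Measure.prod_apply (hT (measurableSet_cyl _ _))]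
  simp only [e2]
  rw [← ofReal_integral_eq_lintegral_ofReal iI (Eventually.of_forall fun y =>
    mul_nonneg (by norm_num) (Finset.prod_nonneg fun e _ => (hb e _).1)), integral_const_mul,
    integral_edges hG hκ hκl h hm F hFe fun e _ z => abs_le.2 ⟨by linarith [(hb e z).1], (hb e z).2⟩]
  refine congrArg (fun t => ENNReal.ofReal (1 / 2 * t)) (Finset.prod_congr rfl fun e he => ?_)
  have : |J e / θ| ≤ 1 := by
    rw [abs_div, abs_of_pos h0, div_le_one h0]
    exact hJ e (hFe e he)
  simp only [h]
  rw [integral_cs this]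
  simp only [c]
  field_simp

end Vale.Agent.N161
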